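import Mathlib

/-!
P212 averaging: two finite groups of unitaries generating a Heisenberg group have fixed spaces
at angle at most `9 / 20` when the commutator pairing spans and the order is a power of five.
-/

namespace VP212.Avg

open Finset

variable {H : Type*} [NormedAddCommGroup H] [InnerProductSpace ℂ H] [CompleteSpace H]

/-- A unitary representation of an additive group. -/
structure URep {G : Type*} [AddCommGroup G] (u : G → (H →L[ℂ] H)) : Prop where
  one : u 0 = 1
  add : ∀ a b, u (a + b) = u a * u b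
  adj : ∀ a, star (u a) = u (-a)

/-- The average of a finite family of operators. -/
noncomputable def avg {G : Type*} [Fintype G] (u : G → (H →L[ℂ] H)) : H →L[ℂ] H :=
  (Fintype.card G : ℂ)⁻¹ • ∑ a, u a

theorem re_inner_star (T : H →L[ℂ] H) (x y : H) :
    inner ℂ x (T y) = inner ℂ (star T x) y := by
  rw [ContinuousLinearMap.star_eq_adjoint, ContinuousLinearMap.adjoint_inner_left]

section Avg

variable {G : Type*} [Fintype G] {u : G → (H →L[ℂ] H)}

omit [CompleteSpace H] in
theorem avg_mul (T : H →L[ℂ] H) : avg u * T = avg fun a => u a * T := by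
  simp [avg, Finset.sum_mul]

omit [CompleteSpace H] in
theorem mul_avg (T : H →L[ℂ] H) : T * avg u = avg fun a => T * u a := by
  simp [avg, Finset.mul_sum]

omit [CompleteSpace H] in
theorem avg_equiv (e : G ≃ G) : (avg fun a => u (e a)) = avg u := by
  rw [avg, avg, Equiv.sum_comp e u]

omit [CompleteSpace H] in
theorem avg_const [Nonempty G] (T : H →L[ℂ] H) : (avg fun _ : G => T) = T := by
  have h : (Fintype.card G : ℂ) ≠ 0 := Nat.cast_ne_zero.2 Fintype.card_ne_zero
  simp [avg, Finset.card_univ, ← Nat.cast_smul_eq_nsmul ℂ, smul_smul]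

omit [CompleteSpace H] in
theorem avg_apply (x : H) : avg u x = (Fintype.card G : ℂ)⁻¹ • ∑ a, u a x := by
  simp [avg]

omit [CompleteSpace H] in
theorem avg_comm {G' : Type*} [Fintype G'] (f : G → G' → (H →L[ℂ] H)) :
    (avg fun a => avg fun b => f a b) = avg fun b => avg fun a => f a b := by
  simp only [avg, ← Finset.smul_sum]
  rw [Finset.sum_comm, smul_comm]

end Avg

namespace URep

variable {G : Type*} [AddCommGroup G] {u : G → (H →L[ℂ] H)} (hu : URep u)
include hu

theorem norm_apply (a : G) (x : H) : ‖u a x‖ = ‖x‖ := by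
  have h : inner ℂ (u a x) (u a x) = inner ℂ x x := by
    rw [re_inner_star, hu.adj, ← mul_apply_eq_comp, ← hu.add, neg_add_cancel, hu.one]
    rfl
  rw [inner_self_eq_norm_sq_to_K, inner_self_eq_norm_sq_to_K] at h
  have h2 : ‖u a x‖ ^ 2 = ‖x‖ ^ 2 := by exact_mod_cast h
  exact (pow_left_inj₀ (norm_nonneg _) (norm_nonneg _) two_ne_zero).1 h2

variable [Fintype G]

theorem mul_avg_self (a : G) : u a * avg u = avg u := by
  rw [mul_avg]
  simp only [← hu.add]
  exact avg_equiv (u := u) (Equiv.addLeft a)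

theorem idem : avg u * avg u = avg u := by
  rw [avg_mul]
  simp only [hu.mul_avg_self]
  exact avg_const _

theorem star_avg : star (avg u) = avg u := by
  have e : star (avg u) = avg fun a => u (-a) := by
    simp [avg, star_smul, star_sum, hu.adj]
  rw [e]
  exact avg_equiv (u := u) (Equiv.neg G)

theorem inner_avg (x : H) : inner ℂ x (avg u x) = inner ℂ (avg u x) (avg u x) := by
  conv_rhs => rw [re_inner_star, hu.star_avg, ← mul_apply_eq_comp, hu.idem]
  rw [re_inner_star, hu.star_avg]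

theorem norm_sq_avg (x : H) : ‖avg u x‖ ^ 2 = (inner ℂ x (avg u x)).re := by
  rw [hu.inner_avg]
  exact @norm_sq_eq_re_inner ℂ H _ _ _ (avg u x)

end URep

section Char

variable {Z : Type*} [AddCommGroup Z] [Fintype Z] {z : Z → (H →L[ℂ] H)} (hz : URep z)
include hz

/-- The spectral weight of a character. -/
theorem weight_nonneg (χ : AddChar Z ℂ) (y : H) :
    ∃ m : ℝ, 0 ≤ m ∧ ∑ k, χ (-k) * inner ℂ y (z k y) = (m : ℂ) := by
  set w := ∑ g, χ (-g) • z g y with hw
  have hf : ∀ g h, inner ℂ (z g y) (z h y) = inner ℂ y (z (h - g) y) := fun g h => by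
    rw [sub_eq_neg_add, hz.add, mul_apply_eq_comp, ← hz.adj, re_inner_star (star (z g)),
      star_star]
  have e : inner ℂ w w = (Fintype.card Z : ℂ) * ∑ k, χ (-k) * inner ℂ y (z k y) := by
    rw [hw, sum_inner]
    simp only [inner_smul_left, inner_sum, inner_smul_right, hf, Finset.mul_sum]
    have hg : ∀ g, (∑ h, starRingEnd ℂ (χ (-g)) * (χ (-h) * inner ℂ y (z (h - g) y))) =
        ∑ k, χ (-k) * inner ℂ y (z k y) := fun g => by
      rw [← Equiv.sum_comp (Equiv.addLeft g)]
      refine Finset.sum_congr rfl fun k _ => ?_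
      rw [← AddChar.map_neg_eq_conj, neg_neg, ← mul_assoc, ← AddChar.map_add_eq_mul]
      congr 2
      all_goals simp
    rw [Finset.sum_congr rfl fun g _ =>
        (Finset.sum_congr rfl fun h _ => mul_left_comm _ _ _).trans (hg g),
      Finset.sum_const, Finset.card_univ, nsmul_eq_mul, Finset.mul_sum]
  refine ⟨‖w‖ ^ 2 / Fintype.card Z, by positivity, ?_⟩
  have hc : (Fintype.card Z : ℂ) ≠ 0 := Nat.cast_ne_zero.2 Fintype.card_ne_zero
  rw [inner_self_eq_norm_sq_to_K] at e
  rw [Complex.ofReal_div, Complex.ofReal_natCast, eq_div_iff hc, mul_comm]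
  exact_mod_cast e.symm

end Char

/-- A Heisenberg pair of unitary representations. -/
structure HPair {V Z : Type*} [AddCommGroup V] [AddCommGroup Z] (τ : V → V → Z)
    (u v : V → (H →L[ℂ] H)) (z : Z → (H →L[ℂ] H)) : Prop where
  hu : URep u
  hv : URep v
  hz : URep z
  cu : ∀ g a, Commute (z g) (u a)
  cv : ∀ g a, Commute (z g) (v a)
  heis : ∀ a b, u a * v b = z (τ a b) * (v b * u a)
  add_left : ∀ a a' b, τ (a + a') b = τ a b + τ a' b
  add_right : ∀ a b b', τ a (b + b') = τ a b + τ a b'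
  spans : ∀ χ : AddChar Z ℂ, (∀ a b, χ (τ a b) = 1) → χ = 1

namespace HPair

variable {V Z : Type*} [AddCommGroup V] [Fintype V] [AddCommGroup Z] [Fintype Z]
  {τ : V → V → Z} {u v : V → (H →L[ℂ] H)} {z : Z → (H →L[ℂ] H)}

omit [CompleteSpace H] [Fintype V] [Fintype Z] in
theorem tau_zero_left (h : ∀ a a' b, τ (a + a') b = τ a b + τ a' b) (b : V) : τ 0 b = 0 := by
  have h0 := h 0 0 b
  rwa [add_zero, left_eq_add] at h0

omit [CompleteSpace H] [Fintype V] [Fintype Z] in
theorem tau_neg_left (h : ∀ a a' b, τ (a + a') b = τ a b + τ a' b) (a b : V) :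
    τ (-a) b = -τ a b := by
  have h0 := h (-a) a b
  rw [neg_add_cancel, tau_zero_left h] at h0
  exact eq_neg_of_add_eq_zero_left h0.symm

variable (h : HPair τ u v z) {k : ℕ} (hk : Fintype.card V = 5 ^ k)
include h

omit [Fintype V] [Fintype Z] in
theorem line_rep (b : V) : URep fun a => z (τ a b) where
  one := by rw [tau_zero_left h.add_left, h.hz.one]
  add a a' := by rw [h.add_left, h.hz.add]
  adj a := by rw [h.hz.adj, tau_neg_left h.add_left]

include hk in
theorem char_sum (χ : AddChar Z ℂ) (hχ : χ ≠ 1) :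
    ∃ N : ℕ, 5 * N ≤ Fintype.card V ∧
      ∑ b, ∑ a, χ (τ a b) = (Fintype.card V : ℂ) * N := by
  classical
  let ψ : V → AddChar V ℂ := fun b =>
    { toFun := fun a => χ (τ a b)
      map_zero_eq_one' := by simp [tau_zero_left h.add_left]
      map_add_eq_mul' := fun a a' => by simp [h.add_left, AddChar.map_add_eq_mul] }
  have hr0 : ∀ a, τ a 0 = 0 := fun a => by
    have h0 := h.add_right a 0 0
    rwa [add_zero, left_eq_add] at h0
  let K : AddSubgroup V :=
    { carrier := {b | ∀ a, χ (τ a b) = 1}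
      add_mem' := fun {b b'} hb hb' a => by
        rw [h.add_right, AddChar.map_add_eq_mul, hb a, hb' a, mul_one]
      zero_mem' := fun a => by rw [hr0, AddChar.map_zero_eq_one]
      neg_mem' := fun {b} hb a => by
        have h0 : τ a (b + -b) = τ a b + τ a (-b) := h.add_right a b (-b)
        rw [add_neg_cancel, hr0] at h0
        rw [eq_neg_of_add_eq_zero_right h0.symm, AddChar.map_neg_eq_conj, hb a, map_one] }
  have hK : K ≠ ⊤ := fun hK => hχ (h.spans χ fun a b => by
    have : b ∈ K := hK ▸ AddSubgroup.mem_top b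
    exact this a)
  refine ⟨Nat.card K, ?_, ?_⟩
  · have hm : Nat.card K * K.index = Fintype.card V := by
      rw [K.card_mul_index, Nat.card_eq_fintype_card]
    have hd : K.index ∣ 5 ^ k := ⟨Nat.card K, by rw [← hk, ← hm, mul_comm]⟩
    obtain ⟨i, _, hi⟩ := (Nat.dvd_prime_pow (by norm_num)).1 hd
    have h5 : 5 ≤ K.index := by
      rcases Nat.eq_zero_or_pos i with rfl | hi0
      · exact absurd (AddSubgroup.index_eq_one.1 (by simpa using hi)) hK
      · rw [hi]
        exact Nat.le_self_pow hi0.ne' 5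
    calc 5 * Nat.card K ≤ K.index * Nat.card K := Nat.mul_le_mul_right _ h5
      _ = _ := by rw [mul_comm, hm]
  · have hb : ∀ b, ∑ a, χ (τ a b) = if b ∈ K then (Fintype.card V : ℂ) else 0 := by
      intro b
      have e : ∑ a, χ (τ a b) = ∑ a, ψ b a := rfl
      rw [e, AddChar.sum_eq_ite]
      refine if_congr ?_ rfl rfl
      constructor
      · intro h0 a
        exact (DFunLike.congr_fun h0 a : ψ b a = _)
      · intro h0
        ext a
        exact h0 a
    simp only [hb, ← Finset.sum_filter, Finset.sum_const]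
    rw [nsmul_eq_mul, mul_comm, Nat.card_eq_fintype_card, Fintype.card_subtype]

include hk in
theorem line_bound (y : H) (hy : avg z y = 0) :
    ∑ b, ∑ a, (inner ℂ y (z (τ a b) y)).re ≤
      (Fintype.card V : ℝ) * Fintype.card V / 5 * ‖y‖ ^ 2 := by
  classical
  choose m hm0 hm using fun χ : AddChar Z ℂ => weight_nonneg h.hz χ y
  set c : ℂ := (Fintype.card Z : ℂ) with hc
  have hinv : ∀ g, c * inner ℂ y (z g y) = ∑ χ : AddChar Z ℂ, χ g * (m χ : ℂ) := by
    intro g
    simp only [← hm, Finset.mul_sum]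
    rw [Finset.sum_comm]
    have e : ∀ k, ∑ χ : AddChar Z ℂ, χ g * (χ (-k) * inner ℂ y (z k y)) =
        (if g - k = 0 then c else 0) * inner ℂ y (z k y) := by
      intro k
      rw [← AddChar.sum_apply_eq_ite (g - k), Finset.sum_mul]
      refine Finset.sum_congr rfl fun χ _ => ?_
      rw [sub_eq_add_neg, AddChar.map_add_eq_mul, mul_assoc]
    simp only [e, sub_eq_zero, ite_mul, zero_mul, Finset.sum_ite_eq, Finset.mem_univ, if_true]
  have hone : m 1 = 0 := by
    have e := hm 1
    simp only [AddChar.one_apply, one_mul] at e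
    rw [← inner_sum] at e
    have h0 : ∑ k, z k y = 0 := by
      have := congrArg (fun x => c • x) hy
      simpa [avg_apply, smul_smul, hc, Nat.cast_ne_zero.2 (Fintype.card_ne_zero (α := Z))] using this
    rw [h0, inner_zero_right] at e
    exact_mod_cast e.symm
  have htot : ∑ χ : AddChar Z ℂ, (m χ : ℂ) = c * (‖y‖ ^ 2 : ℝ) := by
    have e := hinv 0
    simp only [AddChar.map_zero_eq_one, one_mul, h.hz.one, one_apply_eq_self,
      inner_self_eq_norm_sq_to_K] at e
    rw [← e]
    simp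
  have hsum : c * ∑ b, ∑ a, inner ℂ y (z (τ a b) y) =
      ∑ χ : AddChar Z ℂ, (m χ : ℂ) * ∑ b, ∑ a, χ (τ a b) := by
    simp only [Finset.mul_sum, hinv]
    rw [Finset.sum_comm (γ := AddChar Z ℂ)]
    refine Finset.sum_congr rfl fun b _ => ?_
    rw [Finset.sum_comm]
    exact Finset.sum_congr rfl fun χ _ => Finset.sum_congr rfl fun a _ => mul_comm _ _
  have hterm : ∀ χ : AddChar Z ℂ, ((m χ : ℂ) * ∑ b, ∑ a, χ (τ a b)).re ≤
      m χ * ((Fintype.card V : ℝ) * Fintype.card V / 5) := by
    intro χ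
    by_cases hχ : χ = 1
    · subst hχ; simp [hone]
    · obtain ⟨N, hN, e⟩ := h.char_sum hk χ hχ
      rw [e, Complex.re_ofReal_mul]
      refine mul_le_mul_of_nonneg_left ?_ (hm0 χ)
      have : (5 : ℝ) * N ≤ Fintype.card V := by exact_mod_cast hN
      simp only [Complex.mul_re, Complex.natCast_re, Complex.natCast_im, mul_zero, sub_zero]
      nlinarith [(Nat.cast_nonneg (Fintype.card V) : (0 : ℝ) ≤ _)]
  have hre := congrArg Complex.re hsum
  have htot' : ∑ χ : AddChar Z ℂ, m χ = (Fintype.card Z : ℝ) * ‖y‖ ^ 2 := by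
    have := congrArg Complex.re htot
    simpa [hc, Complex.re_sum, pow_two] using this
  rw [hc, Complex.re_sum] at hre
  simp only [Complex.mul_re, Complex.natCast_re, Complex.natCast_im, zero_mul, sub_zero,
    Complex.re_sum] at hre
  have hb := Finset.sum_le_sum (fun χ (_ : χ ∈ Finset.univ) => hterm χ)
  rw [← Finset.sum_mul, htot'] at hb
  have hZ : (0 : ℝ) < Fintype.card Z := Nat.cast_pos.2 Fintype.card_pos
  refine le_of_mul_le_mul_left ?_ hZ
  calc (Fintype.card Z : ℝ) * ∑ b, ∑ a, (inner ℂ y (z (τ a b) y)).re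
      = ∑ χ : AddChar Z ℂ, ((m χ : ℂ) * ∑ b, ∑ a, χ (τ a b)).re := by
        rw [hre]; exact Finset.sum_congr rfl fun χ _ => by simp [Complex.re_sum]
    _ ≤ _ := by nlinarith [hb]

include hk in
/-- On the vectors fixed by `u` and orthogonal to the central ones, `v` averages to a fifth. -/
theorem avg_small (y : H) (hu : avg u y = y) (hw : avg z y = 0) :
    (inner ℂ y (avg v y)).re ≤ ‖y‖ ^ 2 / 5 := by
  have key : ∀ b, (inner ℂ y (v b y)).re ≤ (inner ℂ y (avg (fun a => z (τ a b)) y)).re := by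
    intro b
    set P := avg (fun a => z (τ a b)) with hP
    have hL := h.line_rep b
    have ha : ∀ a, inner ℂ y (v b y) = inner ℂ y (z (τ a b) (v b y)) := by
      intro a
      have e : u a y = y := by
        rw [← hu, ← mul_apply_eq_comp, h.hu.mul_avg_self]
      have e2 : z (τ a b) (v b y) = u a (v b y) := by
        have := congrArg (fun T : H →L[ℂ] H => T y) (h.heis a b)
        simp only [mul_apply_eq_comp, e] at this
        exact this.symm
      have e3 : star (u a) y = y := by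
        rw [h.hu.adj, ← hu, ← mul_apply_eq_comp, h.hu.mul_avg_self]
      rw [e2, re_inner_star (u a), e3]
    have e1 : inner ℂ y (v b y) = inner ℂ y (P (v b y)) := by
      rw [hP, avg_apply, inner_smul_right, inner_sum, ← Finset.sum_congr rfl fun a _ => ha a]
      simp
    have e2 : inner ℂ y (P (v b y)) = inner ℂ (P y) (v b (P y)) := by
      have hc : P * v b = v b * P := by
        rw [hP, avg_mul, mul_avg]
        simp only [(h.cv _ b).eq]
      have hPP : P * P = P := hL.idem
      conv_lhs => rw [← hPP, mul_apply_eq_comp, re_inner_star, hL.star_avg]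
      rw [← mul_apply_eq_comp P (v b), hc, mul_apply_eq_comp]
    rw [e1, e2, ← hL.norm_sq_avg]
    refine (Complex.re_le_norm _).trans ((norm_inner_le_norm _ _).trans ?_)
    rw [h.hv.norm_apply, pow_two]
  have h5 := h.line_bound hk y hw
  have hV : (0 : ℝ) < Fintype.card V := Nat.cast_pos.2 Fintype.card_pos
  have e : ∀ (f : V → (H →L[ℂ] H)), (inner ℂ y (avg f y)).re =
      (Fintype.card V : ℝ)⁻¹ * ∑ a, (inner ℂ y (f a y)).re := by
    intro f
    rw [avg_apply, inner_smul_right, inner_sum]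
    simp [Complex.re_sum, Complex.mul_re]
  rw [e]
  simp only [e] at key
  calc (Fintype.card V : ℝ)⁻¹ * ∑ b, (inner ℂ y (v b y)).re
      ≤ (Fintype.card V : ℝ)⁻¹ * ∑ b, (Fintype.card V : ℝ)⁻¹ *
          ∑ a, (inner ℂ y (z (τ a b) y)).re :=
        mul_le_mul_of_nonneg_left (Finset.sum_le_sum fun b _ => key b) (by positivity)
    _ ≤ (Fintype.card V : ℝ)⁻¹ * ((Fintype.card V : ℝ)⁻¹ *
          ((Fintype.card V : ℝ) * Fintype.card V / 5 * ‖y‖ ^ 2)) := by
        rw [← Finset.mul_sum]
        gcongr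
    _ = ‖y‖ ^ 2 / 5 := by field_simp

include hk in
/-- The angle between the two fixed spaces is at most `9 / 20`. -/
theorem angle (ξ : H) :
    -(9 / 40 : ℝ) * (‖(1 - avg u) ξ‖ ^ 2 + ‖(1 - avg v) ξ‖ ^ 2) ≤
      (inner ℂ ((1 - avg u) ξ) ((1 - avg v) ξ)).re := by
  set p := avg u with hp
  set r := avg v with hr
  set w := avg z with hw
  have pw : w * p = p * w := by
    rw [hw, hp, avg_mul, mul_avg]
    simp only [mul_avg, avg_mul, (h.cu _ _).eq]
  have rw' : w * r = r * w := by
    rw [hw, hr, avg_mul, mul_avg]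
    simp only [mul_avg, avg_mul, (h.cv _ _).eq]
  have hz_abs : ∀ g, w * z g = w := fun g => by
    rw [hw, avg_mul]
    simp only [← h.hz.add]
    exact avg_equiv (u := z) (Equiv.addRight g)
  have hcen : w * (p * r) = w * (r * p) := by
    have e1 : p * r = avg fun a => avg fun b => z (τ a b) * (v b * u a) := by
      rw [hp, avg_mul]
      simp only [hr, mul_avg, h.heis]
    rw [e1, mul_avg]
    simp only [mul_avg, ← mul_assoc, hz_abs]
    have e2 : w * (r * p) = avg fun a => avg fun b => w * (v b * u a) := by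
      rw [hp, hr, mul_avg (u := u) (avg v)]
      simp only [avg_mul, mul_avg]
    simp only [mul_assoc]
    rw [e2]
  set Q := w * (r * p) with hQ
  have rQ : r * Q = Q := by
    calc r * Q = r * w * (r * p) := by rw [hQ, ← mul_assoc]
      _ = w * (r * r * p) := by rw [← rw']; simp only [mul_assoc]
      _ = Q := by rw [hr, h.hv.idem]
  have pQ : p * Q = Q := by
    calc p * Q = p * w * (r * p) := by rw [hQ, ← mul_assoc]
      _ = w * (p * r) * p := by rw [← pw]; simp only [mul_assoc]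
      _ = w * (r * (p * p)) := by rw [hcen, hQ]; simp only [mul_assoc]
      _ = Q := by rw [hp, h.hu.idem]
  have wQ : w * Q = Q := by
    rw [hQ, ← mul_assoc, hw, h.hz.idem]
  have ap : ∀ S T : H →L[ℂ] H, ∀ x, S (T x) = (S * T) x := fun _ _ _ => rfl
  set η := ξ - Q ξ with hη
  set a := p η with ha
  set b := r η with hb
  have ea : a = p ξ - Q ξ := by rw [ha, hη, map_sub, ap, pQ]
  have eb : b = r ξ - Q ξ := by rw [hb, hη, map_sub, ap, rQ]
  set y := a - w a with hy
  have hpa : p a = a := by rw [ha, ap, h.hu.idem]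
  have hpy : p y = y := by
    rw [hy, map_sub, ap p w, ← pw, ← ap w p, hpa]
  have hwy : w y = 0 := by rw [hy, map_sub, ap w w, hw, h.hz.idem, sub_self]
  have hrd : r (w a) = 0 := by
    rw [ea, map_sub, map_sub, ap w p, ap r (w * p), ap w Q, wQ, ap r Q, rQ]
    have e : r * (w * p) = Q := by rw [← mul_assoc, ← rw', mul_assoc]
    rw [e, sub_self]
  have hry : r a = r y := by rw [hy, map_sub, hrd, sub_zero]
  have h5 : ‖r a‖ ^ 2 ≤ ‖y‖ ^ 2 / 5 := by
    rw [hry, hr, h.hv.norm_sq_avg]
    exact h.avg_small hk y hpy hwy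
  have horth : ‖y‖ ^ 2 ≤ ‖a‖ ^ 2 := by
    have e : ‖a‖ ^ 2 = ‖y‖ ^ 2 + 2 * (inner ℂ y (w a)).re + ‖w a‖ ^ 2 := by
      have := @norm_add_sq ℂ H _ _ _ y (w a)
      rwa [hy, sub_add_cancel] at this
    have e0 : inner ℂ y (w a) = 0 := by
      rw [re_inner_star, hw, h.hz.star_avg, ← hw, hwy, inner_zero_left]
    rw [e0, Complex.zero_re] at e
    nlinarith [sq_nonneg ‖w a‖]
  have hab : (inner ℂ a b).re ≤ (20 / 9 * ‖r a‖ ^ 2 + 9 / 20 * ‖b‖ ^ 2) / 2 := by
    have e : inner ℂ a b = inner ℂ (r a) b := by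
      have hrb : r b = b := by rw [hb, ap, hr, h.hv.idem]
      conv_lhs => rw [← hrb, re_inner_star, hr, h.hv.star_avg]
    rw [e]
    have h2 := (Complex.re_le_norm _).trans (norm_inner_le_norm (r a) b)
    nlinarith [sq_nonneg (20 * ‖r a‖ - 9 * ‖b‖)]
  have hηa : (inner ℂ η a).re = ‖a‖ ^ 2 := by rw [ha, hp, h.hu.norm_sq_avg]
  have hηb : (inner ℂ η b).re = ‖b‖ ^ 2 := by rw [hb, hr, h.hv.norm_sq_avg]
  have haη : (inner ℂ a η).re = (inner ℂ η a).re := by
    rw [← inner_conj_symm, Complex.conj_re]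
  have n1 : ‖η - a‖ ^ 2 = ‖η‖ ^ 2 - 2 * (inner ℂ η a).re + ‖a‖ ^ 2 :=
    @norm_sub_sq ℂ H _ _ _ η a
  have n2 : ‖η - b‖ ^ 2 = ‖η‖ ^ 2 - 2 * (inner ℂ η b).re + ‖b‖ ^ 2 :=
    @norm_sub_sq ℂ H _ _ _ η b
  have n3 : (inner ℂ (η - a) (η - b)).re =
      ‖η‖ ^ 2 - (inner ℂ η b).re - (inner ℂ a η).re + (inner ℂ a b).re := by
    have e : (inner ℂ η η).re = ‖η‖ ^ 2 := (@norm_sq_eq_re_inner ℂ H _ _ _ η).symm
    simp only [inner_sub_left, inner_sub_right, Complex.sub_re, e]
    ring
  have sq : 0 ≤ (29 / 20 : ℝ) ^ 2 * ‖η‖ ^ 2 - 29 / 10 * ((inner ℂ η a).re + (inner ℂ η b).re)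
      + (‖a‖ ^ 2 + 2 * (inner ℂ a b).re + ‖b‖ ^ 2) := by
    have h0 := sq_nonneg ‖((29 / 20 : ℝ) : ℂ) • η - (a + b)‖
    have e1 : ‖((29 / 20 : ℝ) : ℂ) • η - (a + b)‖ ^ 2 =
        ‖((29 / 20 : ℝ) : ℂ) • η‖ ^ 2
          - 2 * (inner ℂ (((29 / 20 : ℝ) : ℂ) • η) (a + b)).re + ‖a + b‖ ^ 2 :=
      @norm_sub_sq ℂ H _ _ _ _ _
    have e2 : ‖a + b‖ ^ 2 = ‖a‖ ^ 2 + 2 * (inner ℂ a b).re + ‖b‖ ^ 2 :=
      @norm_add_sq ℂ H _ _ _ a b
    rw [e1, e2, norm_smul, Complex.norm_real, inner_smul_left, inner_add_right,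
      Complex.conj_ofReal, Complex.re_ofReal_mul, Complex.add_re, Real.norm_eq_abs,
      mul_pow, sq_abs] at h0
    linarith
  rw [show (1 - p) ξ = η - a by simp [ea, hη], show (1 - r) ξ = η - b by simp [eb, hη]]
  rw [n1, n2, n3]
  linarith [sq_nonneg ‖a‖]

end HPair

end VP212.Avg
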