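import Vale.Agent.P212.Spec.Roe

/-!
P212 averaging: the blocks of operators on `l2(X) ⊗ l2(N)` and membership of the algebraic Roe
algebra in terms of them.
-/

open scoped InnerProductSpace

namespace VP212.Avg

/-- One fibre `l2(N)`. -/
abbrev L2N : Type := lp (fun _ : ℕ => ℂ) 2

theorem two_pos_toReal : 0 < (2 : ENNReal).toReal := by norm_num

theorem sum_sq_le {α : Type} (f : lp (fun _ : α => ℂ) 2) (s : Finset α) :
    ∑ i ∈ s, ‖f i‖ ^ 2 ≤ ‖f‖ ^ 2 := by
  have h := lp.sum_rpow_le_norm_rpow two_pos_toReal f s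
  simpa using h

theorem norm_le_of_sums {α : Type} (f : lp (fun _ : α => ℂ) 2) {C : ℝ} (hC : 0 ≤ C)
    (h : ∀ s : Finset α, ∑ i ∈ s, ‖f i‖ ^ 2 ≤ C ^ 2) : ‖f‖ ≤ C :=
  lp.norm_le_of_forall_sum_le two_pos_toReal hC fun s => by simpa using h s

variable {X : Type}

theorem res_sums (x : X) (f : RoeSpace X) (s : Finset ℕ) :
    ∑ k ∈ s, ‖f (x, k)‖ ^ 2 ≤ ‖f‖ ^ 2 := by
  classical
  have h := sum_sq_le f (s.image fun k => (x, k))
  rwa [Finset.sum_image (fun a _ b _ hab => (Prod.ext_iff.1 hab).2)] at h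

/-- The restriction of a vector to the fibre over `x`. -/
noncomputable def res (x : X) : RoeSpace X →L[ℂ] L2N :=
  LinearMap.mkContinuous
    { toFun := fun f => ⟨fun k => f (x, k), memℓp_gen' (C := ‖f‖ ^ 2) fun s => by
        simpa using res_sums x f s⟩
      map_add' := fun _ _ => rfl
      map_smul' := fun _ _ => rfl } 1 fun f => by
    rw [one_mul]
    exact norm_le_of_sums _ (norm_nonneg f) fun s => res_sums x f s

@[simp] theorem res_apply (x : X) (f : RoeSpace X) (k : ℕ) : res x f k = f (x, k) := rfl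

theorem norm_res_le (x : X) (f : RoeSpace X) : ‖res x f‖ ≤ ‖f‖ :=
  norm_le_of_sums _ (norm_nonneg f) fun s => res_sums x f s

theorem res_ext {f g : RoeSpace X} (h : ∀ x, res x f = res x g) : f = g :=
  lp.ext (funext fun i => congrArg (fun v : L2N => v i.2) (h i.1))

/-- The inclusion of the fibre over `x`. -/
noncomputable def inj (x : X) : L2N →L[ℂ] RoeSpace X := ContinuousLinearMap.adjoint (res x)

theorem res_single [DecidableEq X] (x y : X) (k : ℕ) (c : ℂ) :
    res x (lp.single 2 (y, k) c) = if x = y then lp.single 2 k c else 0 := by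
  refine lp.ext (funext fun j => ?_)
  rw [res_apply, lp.single_apply]
  by_cases h : x = y
  · subst h
    rw [if_pos rfl, lp.single_apply]
    simp [Pi.single_apply]
  · simp [h]

theorem inj_apply [DecidableEq X] (x y : X) (g : L2N) (k : ℕ) :
    inj x g (y, k) = if y = x then g k else 0 := by
  have h1 : ⟪lp.single 2 (y, k) (1 : ℂ), inj x g⟫_ℂ = inj x g (y, k) := by
    rw [lp.inner_single_left]
    simp
  rw [← h1, inj, ContinuousLinearMap.adjoint_inner_right, res_single]
  by_cases h : x = y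
  · rw [if_pos h, if_pos h.symm, lp.inner_single_left]
    simp
  · rw [if_neg h, if_neg (Ne.symm h), inner_zero_left]

theorem res_inj [DecidableEq X] (x y : X) (g : L2N) :
    res x (inj y g) = if x = y then g else 0 := by
  refine lp.ext (funext fun k => ?_)
  rw [res_apply, inj_apply]
  split_ifs <;> rfl

theorem inner_inj (x : X) (g : L2N) (f : RoeSpace X) : ⟪inj x g, f⟫_ℂ = ⟪g, res x f⟫_ℂ := by
  rw [inj, ContinuousLinearMap.adjoint_inner_left]

theorem inj_single [DecidableEq X] (x : X) (k : ℕ) (c : ℂ) :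
    inj x (lp.single 2 k c) = lp.single 2 (x, k) c := by
  refine res_ext fun y => ?_
  rw [res_inj, res_single]

theorem delta_eq (x : X) (k : ℕ) : delta x k = inj x (lp.single 2 k 1) := by
  classical
  rw [inj_single, delta]

/-- A finite orthogonal family of fibre components has total square at most that of the vector. -/
theorem sum_res_le (f : RoeSpace X) (U : Finset X) : ∑ x ∈ U, ‖res x f‖ ^ 2 ≤ ‖f‖ ^ 2 := by
  classical
  set g := ∑ x ∈ U, inj x (res x f) with hg
  have h1 : (⟪g, f⟫_ℂ).re = ∑ x ∈ U, ‖res x f‖ ^ 2 := by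
    rw [hg, sum_inner, Complex.re_sum]
    refine Finset.sum_congr rfl fun x _ => ?_
    rw [inner_inj]
    exact (@norm_sq_eq_re_inner ℂ L2N _ _ _ (res x f)).symm
  have h2 : ‖g‖ ^ 2 = ∑ x ∈ U, ‖res x f‖ ^ 2 := by
    have e : inner ℂ g g = ∑ x ∈ U, inner ℂ (inj x (res x f)) g := by
      nth_rw 1 [hg]
      rw [sum_inner]
    rw [@norm_sq_eq_re_inner ℂ (RoeSpace X) _ _ _ g, e, map_sum]
    refine Finset.sum_congr rfl fun x hx => ?_
    rw [inner_inj, hg, map_sum]
    simp only [res_inj, Finset.sum_ite_eq, hx, if_true]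
    exact (@norm_sq_eq_re_inner ℂ L2N _ _ _ (res x f)).symm
  have h3 := (Complex.re_le_norm _).trans (norm_inner_le_norm (𝕜 := ℂ) g f)
  rw [h1] at h3
  nlinarith [sq_nonneg (‖g‖ - ‖f‖)]

/-- The block of an operator. -/
noncomputable def blk (S : RoeSpace X →L[ℂ] RoeSpace X) (x y : X) : L2N →L[ℂ] L2N :=
  (res x).comp (S.comp (inj y))

theorem blk_apply (S : RoeSpace X →L[ℂ] RoeSpace X) (x y : X) (g : L2N) :
    blk S x y g = res x (S (inj y g)) := rfl

theorem blk_add (S T : RoeSpace X →L[ℂ] RoeSpace X) (x y : X) :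
    blk (S + T) x y = blk S x y + blk T x y := by
  ext g; simp [blk_apply]

theorem blk_sub (S T : RoeSpace X →L[ℂ] RoeSpace X) (x y : X) :
    blk (S - T) x y = blk S x y - blk T x y := by
  ext g; simp [blk_apply]

theorem blk_smul (c : ℂ) (S : RoeSpace X →L[ℂ] RoeSpace X) (x y : X) :
    blk (c • S) x y = c • blk S x y := by
  ext g; simp [blk_apply]

theorem blk_zero (x y : X) : blk (0 : RoeSpace X →L[ℂ] RoeSpace X) x y = 0 := by
  ext g; simp [blk_apply]

theorem blk_sum {ι : Type*} (s : Finset ι) (S : ι → (RoeSpace X →L[ℂ] RoeSpace X)) (x y : X) :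
    blk (∑ i ∈ s, S i) x y = ∑ i ∈ s, blk (S i) x y := by
  ext g; simp [blk_apply]

theorem blk_star (S : RoeSpace X →L[ℂ] RoeSpace X) (x y : X) :
    blk (star S) x y = ContinuousLinearMap.adjoint (blk S y x) := by
  rw [blk, blk, ContinuousLinearMap.adjoint_comp, ContinuousLinearMap.adjoint_comp,
    ContinuousLinearMap.star_eq_adjoint, inj, inj, ContinuousLinearMap.adjoint_adjoint]
  rfl

/-- Operators with the same blocks are equal. -/
theorem blk_ext {S T : RoeSpace X →L[ℂ] RoeSpace X} (h : ∀ x y, blk S x y = blk T x y) :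
    S = T := by
  classical
  refine lp.ext_continuousLinearMap (by norm_num) fun i => ContinuousLinearMap.ext fun c => ?_
  simp only [ContinuousLinearMap.comp_apply, lp.singleContinuousLinearMap_apply]
  obtain ⟨y, k⟩ := i
  rw [← inj_single]
  exact res_ext fun x => DFunLike.congr_fun (h x y) _

/-- The image of a fibre is the finite sum of its blocks. -/
theorem expand {T : RoeSpace X →L[ℂ] RoeSpace X} {y : X} {F : Finset X}
    (hF : ∀ z, z ∉ F → blk T z y = 0) (g : L2N) :
    T (inj y g) = ∑ z ∈ F, inj z (blk T z y g) := by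
  classical
  refine res_ext fun x => ?_
  rw [map_sum]
  simp only [res_inj, Finset.sum_ite_eq]
  split_ifs with hx
  · rfl
  · exact DFunLike.congr_fun (hF x hx) g

theorem blk_mul {S T : RoeSpace X →L[ℂ] RoeSpace X} (x : X) {y : X} {F : Finset X}
    (hF : ∀ z, z ∉ F → blk T z y = 0) :
    blk (S * T) x y = ∑ z ∈ F, (blk S x z).comp (blk T z y) := by
  ext g
  rw [blk_apply, mul_apply_eq_comp, expand hF]
  simp [blk_apply]

theorem clm_ext_single {H : Type*} [NormedAddCommGroup H] [NormedSpace ℂ H]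
    {A B : L2N →L[ℂ] H} (h : ∀ k, A (lp.single 2 k 1) = B (lp.single 2 k 1)) : A = B := by
  refine lp.ext_continuousLinearMap (by norm_num) fun k => ContinuousLinearMap.ext fun c => ?_
  simp only [ContinuousLinearMap.comp_apply, lp.singleContinuousLinearMap_apply]
  have e : lp.single (E := fun _ : ℕ => ℂ) 2 k c = c • lp.single 2 k (1 : ℂ) := by
    rw [← lp.single_smul, smul_eq_mul, mul_one]
  rw [e, map_smul, map_smul, h]

theorem inner_delta (S : RoeSpace X →L[ℂ] RoeSpace X) (x y : X) (k l : ℕ) :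
    ⟪delta x k, S (delta y l)⟫_ℂ = blk S x y (lp.single 2 l 1) k := by
  rw [delta_eq, delta_eq, inner_inj, lp.inner_single_left, blk_apply]
  simp

theorem blk_eq_zero_iff (S : RoeSpace X →L[ℂ] RoeSpace X) (x y : X) :
    blk S x y = 0 ↔ ∀ k l, ⟪delta x k, S (delta y l)⟫_ℂ = 0 := by
  refine ⟨fun h k l => by rw [inner_delta, h]; rfl, fun h => clm_ext_single fun l => ?_⟩
  exact lp.ext (funext fun k => by rw [← inner_delta, h]; rfl)

theorem fibreProj_eq {x : X} {e : RoeSpace X →L[ℂ] RoeSpace X} (he : IsFibreProj x e) :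
    e = (inj x).comp (res x) := by
  classical
  refine ContinuousLinearMap.ext fun v => lp.ext (funext fun i => ?_)
  obtain ⟨y, k⟩ := i
  rw [ContinuousLinearMap.comp_apply, inj_apply]
  by_cases h : y = x
  · rw [if_pos h, (he v y k).1 h, h, res_apply]
  · rw [if_neg h, (he v y k).2 h]

theorem isFibreProj_inj (x : X) : IsFibreProj x ((inj x).comp (res x)) := by
  classical
  intro v y k
  refine ⟨fun h => ?_, fun h => ?_⟩
  · rw [ContinuousLinearMap.comp_apply, inj_apply, if_pos h, h, res_apply]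
  · rw [ContinuousLinearMap.comp_apply, inj_apply, if_neg h]

/-- The adjoint of a compact operator between Hilbert spaces is compact. -/
theorem compact_adjoint {H K : Type*} [NormedAddCommGroup H] [InnerProductSpace ℂ H]
    [CompleteSpace H] [NormedAddCommGroup K] [InnerProductSpace ℂ K] [CompleteSpace K]
    {T : H →L[ℂ] K} (hT : IsCompactOperator T) :
    IsCompactOperator (ContinuousLinearMap.adjoint T) := by
  set S := ContinuousLinearMap.adjoint T with hS
  have hTS : IsCompactOperator (T.comp S : K →L[ℂ] K) := hT.comp_clm S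
  have hc : IsCompact (closure ((T.comp S) '' Metric.closedBall (0 : K) 1)) :=
    IsCompactOperator.isCompact_closure_image_closedBall (f := (T.comp S).toLinearMap) hTS 1
  refine (isCompactOperator_iff_isCompact_closure_image_closedBall S.toLinearMap one_pos).2 ?_
  have htb : TotallyBounded (S '' Metric.closedBall (0 : K) 1) := by
    refine Metric.totallyBounded_iff.2 fun δ hδ => ?_
    obtain ⟨t, hts, htf, ht⟩ := Metric.finite_approx_of_totallyBounded
      (hc.totallyBounded.subset subset_closure) (δ ^ 2 / 4) (by positivity)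
    choose g hg hgv using fun w (hw : w ∈ t) => hts hw
    refine ⟨Set.range fun w : t => S (g w w.2), @Set.finite_range _ _ _ htf.to_subtype, ?_⟩
    rintro _ ⟨y, hy, rfl⟩
    obtain ⟨w, hw, hyw⟩ := Set.mem_iUnion₂.1 (ht ⟨y, hy, rfl⟩)
    refine Set.mem_iUnion₂.2 ⟨_, ⟨⟨w, hw⟩, rfl⟩, ?_⟩
    set y' := g w hw with hy'
    rw [Metric.mem_ball, dist_eq_norm] at hyw ⊢
    have e : ‖S y - S y'‖ ^ 2 = (⟪y - y', T (S y) - T (S y')⟫_ℂ).re := by
      rw [← map_sub, ← map_sub, ← map_sub, hS, ← ContinuousLinearMap.adjoint_inner_left]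
      exact @norm_sq_eq_re_inner ℂ H _ _ _ _
    have hb : ‖y - y'‖ ≤ 2 := by
      rw [mem_closedBall_zero_iff] at hy
      have h2 := hg w hw
      rw [mem_closedBall_zero_iff] at h2
      linarith [norm_sub_le y y']
    have hw' : ‖T (S y) - T (S y')‖ < δ ^ 2 / 4 := by
      have := hgv w hw
      rw [hy']
      simp only [ContinuousLinearMap.comp_apply] at this hyw
      rwa [this]
    have hle := (Complex.re_le_norm _).trans
      (norm_inner_le_norm (𝕜 := ℂ) (y - y') (T (S y) - T (S y')))
    rw [← e] at hle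
    refine (pow_lt_pow_iff_left₀ (norm_nonneg _) hδ.le two_ne_zero).1 ?_
    nlinarith [mul_le_mul hb hw'.le (norm_nonneg _) zero_le_two]
  exact htb.closure.isCompact_of_isClosed isClosed_closure

variable [MetricSpace X]

/-- Finite propagation. -/
def PropLE (R : ℝ) (S : RoeSpace X →L[ℂ] RoeSpace X) : Prop :=
  ∀ x y, R < dist x y → blk S x y = 0

theorem isRoe_iff (S : RoeSpace X →L[ℂ] RoeSpace X) :
    IsRoe S ↔ (∃ R, PropLE R S) ∧ ∀ x y, IsCompactOperator (blk S x y) := by
  constructor
  · rintro ⟨⟨R, hR⟩, hc⟩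
    refine ⟨⟨R, fun x y h => (blk_eq_zero_iff S x y).2 fun k l => hR x y k l h⟩, fun x y => ?_⟩
    classical
    have h := ((hc x y _ _ (isFibreProj_inj x) (isFibreProj_inj y)).clm_comp (res x)).comp_clm
      (inj y)
    have e : ⇑(blk S x y) = (res x ∘ ((inj x).comp (res x)).comp (S.comp ((inj y).comp (res y)))) ∘
        inj y := by
      funext g
      simp [blk_apply, res_inj]
    rw [e]
    exact h
  · rintro ⟨⟨R, hR⟩, hc⟩
    refine ⟨⟨R, fun x y k l h => (blk_eq_zero_iff S x y).1 (hR x y h) k l⟩,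
      fun x y e e' he he' => ?_⟩
    rw [fibreProj_eq he, fibreProj_eq he']
    exact ((hc x y).clm_comp (inj x)).comp_clm (res y)

end VP212.Avg
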