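import Vale.Agent.P212.Avg.Null

/-!
P212 averaging: diagonal operators on the universal spaces.
-/

open scoped InnerProductSpace

namespace VP212.Avg

section Family

variable {ι : Type*} {E F : ι → Type*} [∀ i, NormedAddCommGroup (E i)]
  [∀ i, NormedAddCommGroup (F i)]

theorem sums_le (v : lp E 2) {w : ∀ i, F i} {C : ℝ} (h : ∀ i, ‖w i‖ ≤ C * ‖v i‖) (s : Finset ι) :
    ∑ i ∈ s, ‖w i‖ ^ 2 ≤ (C * ‖v‖) ^ 2 := by
  have h1 : ∑ i ∈ s, ‖v i‖ ^ 2 ≤ ‖v‖ ^ 2 := by
    simpa using lp.sum_rpow_le_norm_rpow (p := 2) (by norm_num) v s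
  calc ∑ i ∈ s, ‖w i‖ ^ 2 ≤ ∑ i ∈ s, C ^ 2 * ‖v i‖ ^ 2 := Finset.sum_le_sum fun i _ => by
        rw [← mul_pow]; exact pow_le_pow_left₀ (norm_nonneg _) (h i) 2
    _ = C ^ 2 * ∑ i ∈ s, ‖v i‖ ^ 2 := by rw [Finset.mul_sum]
    _ ≤ C ^ 2 * ‖v‖ ^ 2 := mul_le_mul_of_nonneg_left h1 (sq_nonneg _)
    _ = (C * ‖v‖) ^ 2 := (mul_pow _ _ _).symm

theorem norm_le_comp (v : lp E 2) {w : lp F 2} {C : ℝ} (hC : 0 ≤ C)
    (h : ∀ i, ‖w i‖ ≤ C * ‖v i‖) : ‖w‖ ≤ C * ‖v‖ :=
  lp.norm_le_of_forall_sum_le (by norm_num) (mul_nonneg hC (norm_nonneg v))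
    fun s => by simpa using sums_le v h s

variable [∀ i, NormedSpace ℂ (E i)]

/-- A bounded family as a diagonal operator. -/
noncomputable def diag (f : ∀ i, E i →L[ℂ] E i) (C : ℝ) (hC : 0 ≤ C) (hf : ∀ i, ‖f i‖ ≤ C) :
    lp E 2 →L[ℂ] lp E 2 :=
  LinearMap.mkContinuous
    { toFun := fun v => ⟨fun i => f i (v i), memℓp_gen' (C := (C * ‖v‖) ^ 2) fun s => by
        simpa using sums_le v (w := fun i => f i (v i)) (fun i =>
          ((f i).le_opNorm (v i)).trans (mul_le_mul_of_nonneg_right (hf i) (norm_nonneg _))) s⟩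
      map_add' := fun v w => lp.ext (funext fun i => (f i).map_add (v i) (w i))
      map_smul' := fun c v => lp.ext (funext fun i => (f i).map_smul c (v i)) } C fun v =>
    norm_le_comp v hC fun i =>
      ((f i).le_opNorm (v i)).trans (mul_le_mul_of_nonneg_right (hf i) (norm_nonneg _))

theorem diag_apply (f : ∀ i, E i →L[ℂ] E i) (C : ℝ) (hC : 0 ≤ C) (hf : ∀ i, ‖f i‖ ≤ C)
    (v : lp E 2) (i : ι) : diag f C hC hf v i = f i (v i) := rfl

end Family

variable {X : Type} [MetricSpace X]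

/-- The component at `p` of an operator on the universal space. -/
noncomputable def comp (p : RoeRep X) (a : UnivSpace X →L[ℂ] UnivSpace X) :
    p.carrier →L[ℂ] p.carrier := by
  classical
  exact (lp.evalCLM ℂ (fun π : RoeRep X => π.carrier) 2 p).comp
      (a.comp (lp.singleContinuousLinearMap ℂ (fun π : RoeRep X => π.carrier) 2 p))

theorem comp_apply [hd : DecidableEq (RoeRep X)] (p : RoeRep X)
    (a : UnivSpace X →L[ℂ] UnivSpace X) (x : p.carrier) :
    comp p a x = a (lp.single 2 p x) p := by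
  obtain rfl : hd = Classical.decEq (RoeRep X) := Subsingleton.elim _ _
  rfl

theorem norm_comp_le (p : RoeRep X) (a : UnivSpace X →L[ℂ] UnivSpace X) : ‖comp p a‖ ≤ ‖a‖ := by
  classical
  refine ContinuousLinearMap.opNorm_le_bound _ (norm_nonneg a) fun x => ?_
  rw [comp_apply]
  refine (lp.norm_apply_le_norm (by norm_num) _ p).trans ((a.le_opNorm _).trans ?_)
  rw [lp.norm_single (by norm_num)]

theorem comp_add (p : RoeRep X) (a b : UnivSpace X →L[ℂ] UnivSpace X) :
    comp p (a + b) = comp p a + comp p b := by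
  classical
  ext x; simp [comp_apply]

theorem comp_smul (p : RoeRep X) (c : ℂ) (a : UnivSpace X →L[ℂ] UnivSpace X) :
    comp p (c • a) = c • comp p a := by
  classical
  ext x; simp [comp_apply]

theorem comp_one (p : RoeRep X) : comp p (1 : UnivSpace X →L[ℂ] UnivSpace X) = 1 := by
  classical
  ext x; simp [comp_apply]

open Classical in
/-- No mixing of the summands. -/
def IsDiag (a : UnivSpace X →L[ℂ] UnivSpace X) : Prop :=
  ∀ (p q : RoeRep X) (x : p.carrier), q ≠ p → a (lp.single 2 p x) q = 0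

theorem comp_mul (p : RoeRep X) (a : UnivSpace X →L[ℂ] UnivSpace X)
    {b : UnivSpace X →L[ℂ] UnivSpace X} (hb : IsDiag b) :
    comp p (a * b) = comp p a * comp p b := by
  classical
  ext x
  simp only [mul_apply_eq_comp, comp_apply]
  have key : b (lp.single 2 p x) =
      (lp.single 2 p (b (lp.single 2 p x) p) : UnivSpace X) := by
    refine lp.ext (funext fun q => ?_)
    by_cases hq : q = p
    · subst hq; rw [lp.single_apply_self]
    · rw [lp.single_apply_ne 2 p _ hq]
      convert hb p q x hq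
  exact congrArg (fun w : UnivSpace X => (a w : ∀ π : RoeRep X, π.carrier) p) key

theorem comp_image (p : RoeRep X) {S : RoeSpace X →L[ℂ] RoeSpace X}
    {A : UnivSpace X →L[ℂ] UnivSpace X} (h : IsUnivImage S A) : comp p A = p.π S := by
  classical
  ext x
  rw [comp_apply, h, lp.single_apply_self]

theorem isDiag_unit {a : UnivSpace X →L[ℂ] UnivSpace X} (ha : a ∈ maxRoeUnit X) : IsDiag a := by
  classical
  obtain ⟨z, B, hB, rfl⟩ := ha
  intro p q x hq
  set e : UnivSpace X := lp.single 2 p x with he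
  have hcl : IsClosed {A : UnivSpace X →L[ℂ] UnivSpace X | A e q = 0} :=
    isClosed_eq (((lp.lipschitzWith_one_eval (E := fun π : RoeRep X => π.carrier) 2 q).continuous).comp
      ((ContinuousLinearMap.apply ℂ (UnivSpace X) e).continuous)) continuous_const
  have h0 : B e q = 0 := closure_minimal (fun A hA => by
    obtain ⟨S, _, hA⟩ := hA
    show A e q = 0
    rw [he, hA, lp.single_apply_ne 2 p _ hq, map_zero]) hcl hB
  show (z • (1 : UnivSpace X →L[ℂ] UnivSpace X) + B) (lp.single 2 p x) q = 0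
  simp only [add_apply, smul_apply, one_apply_eq_self, lp.coeFn_add, lp.coeFn_smul,
    Pi.add_apply, Pi.smul_apply, lp.single_apply_ne 2 p _ hq, smul_zero]
  rw [zero_add]
  exact h0

end VP212.Avg
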