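import Vale.Agent.P212.Avg.RoeOps
import Vale.Agent.P212.Avg.Angle

/-!
P212 averaging: a representation of `C[X]` carries the permutations of bounded displacement to
unitaries of its carrier, the identity off the essential subspace.
-/

open scoped InnerProductSpace

namespace VP212.Avg

variable {X : Type} [MetricSpace X] (π : RoeRep X)

/-- Bounded displacement, with some bound. -/
def Bdd (σ : Equiv.Perm X) : Prop := ∃ D, Moves D σ

theorem bdd_one : Bdd (1 : Equiv.Perm X) := ⟨0, fun x => by simp⟩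

theorem Bdd.inv {σ : Equiv.Perm X} (h : Bdd σ) : Bdd σ⁻¹ := h.imp fun _ hD => hD.inv

theorem Bdd.mul {σ τ : Equiv.Perm X} (h : Bdd σ) (h' : Bdd τ) : Bdd (σ * τ) := by
  obtain ⟨D, hD⟩ := h
  obtain ⟨D', hD'⟩ := h'
  refine ⟨D' + D, fun x => ?_⟩
  rw [Equiv.Perm.mul_apply]
  linarith [dist_triangle x (τ x) (σ (τ x)), hD (τ x), hD' x]

theorem Bdd.roe_left {σ : Equiv.Perm X} (h : Bdd σ) {S : RoeSpace X →L[ℂ] RoeSpace X}
    (hS : IsRoe S) : IsRoe (permOp σ * S) :=
  isRoe_perm_mul h.choose_spec hS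

theorem Bdd.roe_right {σ : Equiv.Perm X} (h : Bdd σ) {S : RoeSpace X →L[ℂ] RoeSpace X}
    (hS : IsRoe S) : IsRoe (S * permOp σ) :=
  isRoe_mul_perm h.choose_spec hS

/-- The indices of the spanning vectors. -/
abbrev Idx : Type := {S : RoeSpace X →L[ℂ] RoeSpace X // IsRoe S} × π.carrier

/-- The spanning vectors. -/
noncomputable def gens : (Idx π →₀ ℂ) →ₗ[ℂ] π.carrier :=
  Finsupp.linearCombination ℂ fun i => π.π i.1.1 i.2

/-- The moved spanning vectors. -/
noncomputable def gensMoved (σ : Equiv.Perm X) : (Idx π →₀ ℂ) →ₗ[ℂ] π.carrier :=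
  Finsupp.linearCombination ℂ fun i => π.π (permOp σ * i.1.1) i.2

/-- The essential subspace. -/
noncomputable def ess : Submodule ℂ π.carrier := (LinearMap.range (gens π)).topologicalClosure

noncomputable instance : CompleteSpace (ess π) :=
  (Submodule.isClosed_topologicalClosure _).completeSpace_coe

/-- The spanning map into the essential subspace. -/
noncomputable def gensE : (Idx π →₀ ℂ) →ₗ[ℂ] ess π :=
  (gens π).codRestrict (ess π) fun a =>
    Submodule.le_topologicalClosure _ (LinearMap.mem_range_self _ a)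

theorem gensE_dense : DenseRange (gensE π) := by
  intro v
  rw [Metric.mem_closure_iff]
  intro δ hδ
  have hv : (v : π.carrier) ∈ closure (LinearMap.range (gens π) : Set π.carrier) := by
    rw [← Submodule.topologicalClosure_coe]
    exact v.2
  obtain ⟨w, ⟨a, ha⟩, hw⟩ := Metric.mem_closure_iff.1 hv δ hδ
  refine ⟨gensE π a, ⟨a, rfl⟩, ?_⟩
  rw [← ha] at hw
  exact hw

theorem inner_moved {σ : Equiv.Perm X} (hσ : Bdd σ)
    {S T : RoeSpace X →L[ℂ] RoeSpace X} (hS : IsRoe S) (hT : IsRoe T) (h k : π.carrier) :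
    ⟪π.π (permOp σ * S) h, π.π (permOp σ * T) k⟫_ℂ = ⟪π.π S h, π.π T k⟫_ℂ := by
  rw [re_inner_star, re_inner_star (π.π T), ← π.map_star _ (hσ.roe_left hT),
    ← π.map_star _ hT, ← mul_apply_eq_comp, ← mul_apply_eq_comp,
    ← π.map_mul _ _ (isRoe_star (hσ.roe_left hT)) (hσ.roe_left hS),
    ← π.map_mul _ _ (isRoe_star hT) hS, star_mul, mul_assoc, ← mul_assoc (star (permOp σ)),
    star_permOp, ← permOp_mul, inv_mul_cancel, permOp_one, one_mul]

theorem inner_gensMoved {σ : Equiv.Perm X} (hσ : Bdd σ)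
    (a b : Idx π →₀ ℂ) :
    ⟪gensMoved π σ a, gensMoved π σ b⟫_ℂ = ⟪gens π a, gens π b⟫_ℂ := by
  simp only [gensMoved, gens, Finsupp.linearCombination_apply, Finsupp.sum, sum_inner, inner_sum,
    inner_smul_left, inner_smul_right]
  refine Finset.sum_congr rfl fun i _ => congrArg _ (Finset.sum_congr rfl fun j _ => ?_)
  rw [inner_moved π hσ j.1.2 i.1.2]

theorem norm_gensMoved {σ : Equiv.Perm X} (hσ : Bdd σ)
    (a : Idx π →₀ ℂ) : ‖gensMoved π σ a‖ ≤ 1 * ‖gensE π a‖ := by
  rw [one_mul]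
  refine le_of_eq ((pow_left_inj₀ (norm_nonneg _) (norm_nonneg _) two_ne_zero).1 ?_)
  show ‖gensMoved π σ a‖ ^ 2 = ‖gens π a‖ ^ 2
  rw [@norm_sq_eq_re_inner ℂ π.carrier _ _ _ (gensMoved π σ a),
    @norm_sq_eq_re_inner ℂ π.carrier _ _ _ (gens π a), inner_gensMoved π hσ]

/-- The unitary of a permutation on the carrier. -/
noncomputable def ext (σ : Equiv.Perm X) : π.carrier →L[ℂ] π.carrier :=
  ((gensMoved π σ).extendOfNorm (gensE π)).comp (ess π).orthogonalProjectionOnto +
    (1 - (ess π).starProjection)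

theorem apply_mem_ess {S : RoeSpace X →L[ℂ] RoeSpace X} (hS : IsRoe S) (h : π.carrier) :
    π.π S h ∈ ess π :=
  Submodule.le_topologicalClosure _ ⟨Finsupp.single (⟨S, hS⟩, h) 1, by simp [gens]⟩

theorem ext_apply {σ : Equiv.Perm X} (hσ : Bdd σ) {S : RoeSpace X →L[ℂ] RoeSpace X}
    (hS : IsRoe S) (h : π.carrier) : ext π σ (π.π S h) = π.π (permOp σ * S) h := by
  have hm := apply_mem_ess π hS h
  have e : gensE π (Finsupp.single (⟨S, hS⟩, h) 1) = ⟨π.π S h, hm⟩ := by
    apply Subtype.ext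
    simp [gensE, gens]
  simp only [ext, add_apply, sub_apply, ContinuousLinearMap.comp_apply, one_apply_eq_self]
  rw [Submodule.starProjection_eq_self_iff.2 hm, sub_self, add_zero,
    Submodule.orthogonalProjectionOnto_mem_subspace_eq_self (⟨π.π S h, hm⟩ : ess π), ← e,
    LinearMap.extendOfNorm_eq (gensE_dense π) ⟨1, norm_gensMoved π hσ⟩]
  simp [gensMoved]

theorem ext_comp {σ : Equiv.Perm X} (hσ : Bdd σ) {S : RoeSpace X →L[ℂ] RoeSpace X}
    (hS : IsRoe S) : ext π σ * π.π S = π.π (permOp σ * S) :=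
  ContinuousLinearMap.ext fun h => ext_apply π hσ hS h

theorem ext_apply_orth (σ : Equiv.Perm X) {v : π.carrier} (hv : v ∈ (ess π)ᗮ) :
    ext π σ v = v := by
  simp only [ext, add_apply, sub_apply, ContinuousLinearMap.comp_apply, one_apply_eq_self,
    (ess π).starProjection_apply_eq_zero_iff.2 hv,
    (ess π).orthogonalProjectionOnto_eq_zero_iff.2 hv, map_zero,
    sub_zero, zero_add]

/-- Operators agreeing on the spanning vectors and on the orthogonal complement are equal. -/
theorem op_ext {H : Type*} [NormedAddCommGroup H] [NormedSpace ℂ H]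
    {A B : π.carrier →L[ℂ] H} (h1 : ∀ S, IsRoe S → ∀ h, A (π.π S h) = B (π.π S h))
    (h2 : ∀ v ∈ (ess π)ᗮ, A v = B v) : A = B := by
  refine ContinuousLinearMap.ext fun v => ?_
  have hess : ∀ w ∈ ess π, A w = B w := by
    have hc : IsClosed {w | A w = B w} := isClosed_eq A.continuous B.continuous
    intro w hw
    refine (closure_minimal ?_ hc) (by rwa [ess, ← SetLike.mem_coe,
      Submodule.topologicalClosure_coe] at hw)
    rintro _ ⟨a, rfl⟩
    show A (gens π a) = B (gens π a)
    simp only [gens, Finsupp.linearCombination_apply, Finsupp.sum, map_sum, map_smul]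
    exact Finset.sum_congr rfl fun i _ => by rw [h1 _ i.1.2]
  rw [← (ess π).starProjection_add_starProjection_orthogonal v, map_add, map_add,
    hess _ (Submodule.starProjection_apply_mem _ v),
    h2 _ (Submodule.starProjection_apply_mem _ v)]

theorem ext_one : ext π (1 : Equiv.Perm X) = 1 :=
  op_ext π (fun S hS h => by rw [ext_apply π bdd_one hS, permOp_one, one_mul]; rfl)
    (fun v hv => by rw [ext_apply_orth π 1 hv]; rfl)

theorem ext_mul {σ τ : Equiv.Perm X} (hσ : Bdd σ) (hτ : Bdd τ) :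
    ext π (σ * τ) = ext π σ * ext π τ :=
  op_ext π (fun S hS h => by
    rw [mul_apply_eq_comp, ext_apply π (hσ.mul hτ) hS, ext_apply π hτ hS,
      ext_apply π hσ (hτ.roe_left hS), permOp_mul, mul_assoc])
    (fun v hv => by rw [mul_apply_eq_comp, ext_apply_orth π _ hv, ext_apply_orth π _ hv,
      ext_apply_orth π _ hv])

theorem star_ext {σ : Equiv.Perm X} (hσ : Bdd σ) : star (ext π σ) = ext π σ⁻¹ := by
  rw [ContinuousLinearMap.star_eq_adjoint]
  refine ((ContinuousLinearMap.eq_adjoint_iff _ _).2 fun x y => ?_).symm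
  have key : ∀ y, (innerSL ℂ y).comp (ext π σ⁻¹) = innerSL ℂ (ext π σ y) := by
    intro y
    refine op_ext π (fun S hS h => ?_) (fun v hv => ?_)
    · show ⟪y, ext π σ⁻¹ (π.π S h)⟫_ℂ = ⟪ext π σ y, π.π S h⟫_ℂ
      have hy : (innerSL ℂ (ext π σ⁻¹ (π.π S h))) = (innerSL ℂ (π.π S h)).comp (ext π σ) := by
        refine op_ext π (fun T hT k => ?_) (fun v hv => ?_)
        · show ⟪ext π σ⁻¹ (π.π S h), π.π T k⟫_ℂ = ⟪π.π S h, ext π σ (π.π T k)⟫_ℂ
          rw [ext_apply π hσ.inv hS, ext_apply π hσ hT,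
            ← inner_moved π hσ (hσ.inv.roe_left hS) hT, ← mul_assoc, ← permOp_mul,
            mul_inv_cancel, permOp_one, one_mul]
        · show ⟪ext π σ⁻¹ (π.π S h), v⟫_ℂ = ⟪π.π S h, ext π σ v⟫_ℂ
          rw [ext_apply π hσ.inv hS, ext_apply_orth π σ hv,
            Submodule.inner_right_of_mem_orthogonal (apply_mem_ess π (hσ.inv.roe_left hS) h) hv,
            Submodule.inner_right_of_mem_orthogonal (apply_mem_ess π hS h) hv]
      have e := DFunLike.congr_fun hy y
      simp only [innerSL_apply_apply, ContinuousLinearMap.comp_apply] at e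
      rw [← inner_conj_symm, e, inner_conj_symm]
    · show ⟪y, ext π σ⁻¹ v⟫_ℂ = ⟪ext π σ y, v⟫_ℂ
      rw [ext_apply_orth π _ hv]
      have hy : (innerSL ℂ v) = (innerSL ℂ v).comp (ext π σ) := by
        refine op_ext π (fun T hT k => ?_) (fun w hw => ?_)
        · show ⟪v, π.π T k⟫_ℂ = ⟪v, ext π σ (π.π T k)⟫_ℂ
          rw [ext_apply π hσ hT,
            Submodule.inner_left_of_mem_orthogonal (apply_mem_ess π (hσ.roe_left hT) k) hv,
            Submodule.inner_left_of_mem_orthogonal (apply_mem_ess π hT k) hv]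
        · show ⟪v, w⟫_ℂ = ⟪v, ext π σ w⟫_ℂ
          rw [ext_apply_orth π _ hw]
      have e := DFunLike.congr_fun hy y
      simp only [innerSL_apply_apply, ContinuousLinearMap.comp_apply] at e
      rw [← inner_conj_symm, e, inner_conj_symm]
  have e := DFunLike.congr_fun (key y) x
  simp only [innerSL_apply_apply, ContinuousLinearMap.comp_apply] at e
  rw [← inner_conj_symm, e, inner_conj_symm]

theorem comp_ext {σ : Equiv.Perm X} (hσ : Bdd σ) {S : RoeSpace X →L[ℂ] RoeSpace X}
    (hS : IsRoe S) : π.π S * ext π σ = π.π (S * permOp σ) := by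
  have e := ext_comp π hσ.inv (isRoe_star hS)
  have e2 := congrArg star e
  rwa [star_mul, star_ext π hσ.inv, inv_inv, π.map_star _ hS, star_star,
    ← π.map_star _ (hσ.inv.roe_left (isRoe_star hS)), star_mul, star_star, star_permOp,
    inv_inv] at e2

end VP212.Avg
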