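import Vale.Agent.P212.Avg.Letters

/-!
P212 averaging: operators on the space lifted from the collapsed one by couplings of the fibres,
and operators with vanishing fibre row sums.
-/

open scoped InnerProductSpace

namespace VP212.Avg

variable {T : Tower}

/-- All fibre row sums of `Z` are given by `t`. -/
def HasRows (Z : RoeSpace (Vert T) →L[ℂ] RoeSpace (Vert T))
    (t : Base → Base → (L2N →L[ℂ] L2N)) : Prop :=
  ∀ (x : Vert T) (v : Base), ∑ b, blk Z x (mkV v b) = t x.base v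

theorem HasRows.sub {Z Z' : RoeSpace (Vert T) →L[ℂ] RoeSpace (Vert T)}
    {t : Base → Base → (L2N →L[ℂ] L2N)} (h : HasRows Z t) (h' : HasRows Z' t) :
    ∀ (x : Vert T) (v : Base), ∑ b, blk (Z - Z') x (mkV v b) = 0 := by
  intro x v
  simp only [blk_sub, Finset.sum_sub_distrib, h x v, h' x v, sub_self]

theorem HasRows.perm {Z : RoeSpace (Vert T) →L[ℂ] RoeSpace (Vert T)}
    {t : Base → Base → (L2N →L[ℂ] L2N)} (h : HasRows Z t) (σ : Equiv.Perm (Vert T))
    (hσ : ∀ x, (σ x).base = x.base) : HasRows (permOp σ * Z) t := by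
  intro x v
  simp only [blk_permOp_mul]
  rw [h]
  congr 1
  conv_rhs => rw [show x = σ (σ⁻¹ x) by simp, hσ]

/-- The scalar between two fibres. -/
noncomputable def scal (T : Tower) (u v : Base) : ℝ :=
  Real.sqrt (Fintype.card (T.Fib v.n v.l)) / Real.sqrt (Fintype.card (T.Fib u.n u.l))

theorem scal_mul (u w v : Base) : scal T u w * scal T w v = scal T u v := by
  have h : Real.sqrt (Fintype.card (T.Fib w.n w.l)) ≠ 0 :=
    (Real.sqrt_pos.2 (Nat.cast_pos.2 Fintype.card_pos)).ne'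
  simp only [scal]
  field_simp

variable (hG : GeometrySpec)
include hG

theorem couple_exists (R : ℝ) :
    ∃ S : ℝ, ∀ u v : Base, dist u v ≤ R → FibresCouple T u v S :=
  (hG T).2.2.2.2.2.2 R

/-- The scale of the couplings for pairs at distance at most `m`. -/
noncomputable def cScale (T : Tower) (m : ℕ) : ℝ := (couple_exists (T := T) hG m).choose

theorem couple_spec (u v : Base) : FibresCouple T u v (cScale hG T ⌈dist u v⌉₊) :=
  (couple_exists (T := T) hG _).choose_spec u v (Nat.le_ceil _)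

/-- The chosen coupling. -/
noncomputable def cpl (u v : Base) : T.Fib u.n u.l → T.Fib v.n v.l → ℝ :=
  (couple_spec (T := T) hG u v).choose

theorem cpl_nonneg (u v : Base) (a b) : 0 ≤ cpl (T := T) hG u v a b :=
  (couple_spec (T := T) hG u v).choose_spec.1 a b

theorem cpl_row (u v : Base) (a : T.Fib u.n u.l) :
    ∑ b, cpl (T := T) hG u v a b = 1 / (Fintype.card (T.Fib u.n u.l) : ℝ) :=
  (couple_spec (T := T) hG u v).choose_spec.2.1 a

theorem cpl_col (u v : Base) (b : T.Fib v.n v.l) :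
    ∑ a, cpl (T := T) hG u v a b = 1 / (Fintype.card (T.Fib v.n v.l) : ℝ) :=
  (couple_spec (T := T) hG u v).choose_spec.2.2.1 b

theorem cpl_near (u v : Base) (a b) (h : cpl (T := T) hG u v a b ≠ 0) :
    dist (mkV u a) (mkV v b) ≤ cScale hG T ⌈dist u v⌉₊ :=
  (couple_spec (T := T) hG u v).choose_spec.2.2.2 a b h

/-- The weight of an entry. -/
noncomputable def wt (x y : Vert T) : ℝ :=
  cpl hG x.base y.base x.w y.w *
    Real.sqrt ((Fintype.card (T.Fib x.n x.l) : ℝ) * Fintype.card (T.Fib y.n y.l))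

theorem abs_wt_le (x y : Vert T) : |wt hG x y| ≤ 1 := by
  set c := cpl hG x.base y.base x.w y.w with hc
  set a : ℝ := ((Fintype.card (T.Fib x.n x.l) : ℕ) : ℝ) with ha
  set b : ℝ := ((Fintype.card (T.Fib y.n y.l) : ℕ) : ℝ) with hb
  have ha0 : 0 < a := Nat.cast_pos.2 Fintype.card_pos
  have hb0 : 0 < b := Nat.cast_pos.2 Fintype.card_pos
  have h0 : 0 ≤ c := cpl_nonneg hG _ _ _ _
  have h1 : c ≤ 1 / a := by
    exact (Finset.single_le_sum (fun b _ => cpl_nonneg hG x.base y.base x.w b)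
      (Finset.mem_univ y.w)).trans (cpl_row hG x.base y.base x.w).le
  have h2 : c ≤ 1 / b := by
    exact (Finset.single_le_sum (fun a _ => cpl_nonneg hG x.base y.base a y.w)
      (Finset.mem_univ x.w)).trans (cpl_col hG x.base y.base y.w).le
  rw [← sq_le_one_iff_abs_le_one]
  have e : wt hG x y = c * Real.sqrt (a * b) := rfl
  rw [e, mul_pow, Real.sq_sqrt (mul_nonneg ha0.le hb0.le)]
  rw [le_div_iff₀ ha0] at h1
  rw [le_div_iff₀ hb0] at h2
  calc c ^ 2 * (a * b) = (c * a) * (c * b) := by ring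
    _ ≤ 1 * 1 := mul_le_mul h1 h2 (mul_nonneg h0 hb0.le) zero_le_one
    _ = 1 := one_mul 1

theorem sum_wt_row (x : Vert T) (v : Base) :
    ∑ b, wt hG x (mkV v b) = scal T x.base v := by
  have e : ∀ b, wt hG x (mkV v b) = cpl hG x.base v x.w b *
      Real.sqrt ((Fintype.card (T.Fib x.n x.l) : ℝ) * Fintype.card (T.Fib v.n v.l)) :=
    fun b => rfl
  simp only [e, ← Finset.sum_mul]
  rw [cpl_row hG x.base v x.w, Real.sqrt_mul (Nat.cast_nonneg _), scal]
  have ha : (0 : ℝ) < Fintype.card (T.Fib x.n x.l) := Nat.cast_pos.2 Fintype.card_pos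
  have hs := Real.mul_self_sqrt ha.le
  have hs0 := (Real.sqrt_pos.2 ha).ne'
  show 1 / ((Fintype.card (T.Fib x.n x.l) : ℕ) : ℝ) * _ =
    _ / Real.sqrt ((Fintype.card (T.Fib x.n x.l) : ℕ) : ℝ)
  field_simp
  rw [Real.sq_sqrt ha.le]

theorem sum_wt_col (x : Vert T) (v : Base) :
    ∑ b, wt hG (mkV v b) x = scal T x.base v := by
  have e : ∀ b, wt hG (mkV v b) x = cpl hG v x.base b x.w *
      Real.sqrt ((Fintype.card (T.Fib v.n v.l) : ℝ) * Fintype.card (T.Fib x.n x.l)) :=
    fun b => rfl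
  simp only [e, ← Finset.sum_mul]
  rw [cpl_col hG v x.base x.w, Real.sqrt_mul (Nat.cast_nonneg _), scal]
  have ha : (0 : ℝ) < Fintype.card (T.Fib x.n x.l) := Nat.cast_pos.2 Fintype.card_pos
  have hs := Real.mul_self_sqrt ha.le
  have hs0 := (Real.sqrt_pos.2 ha).ne'
  show 1 / ((Fintype.card (T.Fib x.n x.l) : ℕ) : ℝ) * _ =
    _ / Real.sqrt ((Fintype.card (T.Fib x.n x.l) : ℕ) : ℝ)
  field_simp
  rw [Real.sq_sqrt ha.le]

/-- The blocks of the lifted operator. -/
noncomputable def liftK (S : RoeSpace Base →L[ℂ] RoeSpace Base) (x y : Vert T) :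
    L2N →L[ℂ] L2N :=
  ((wt hG x y : ℝ) : ℂ) • blk S x.base y.base

theorem norm_liftK_le (S : RoeSpace Base →L[ℂ] RoeSpace Base) :
    ∃ M, 0 ≤ M ∧ ∀ x y : Vert T, ‖liftK hG S x y‖ ≤ M := by
  refine ⟨‖S‖, norm_nonneg S, fun x y => ?_⟩
  rw [liftK, norm_smul, Complex.norm_real, Real.norm_eq_abs, ← one_mul ‖S‖]
  exact mul_le_mul (abs_wt_le hG x y) (norm_blk_le S _ _) (norm_nonneg _) zero_le_one

/-- The propagation of the lifted operator. -/
noncomputable def liftR (T : Tower) (R : ℝ) : ℝ :=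
  ∑ m ∈ Finset.range (⌈R⌉₊ + 1), |cScale hG T m|

theorem liftK_far {S : RoeSpace Base →L[ℂ] RoeSpace Base} {R : ℝ} (hR : PropLE R S)
    (x y : Vert T) (h : liftR hG T R < dist x y) : liftK hG S x y = 0 := by
  by_contra hne
  have hb : blk S x.base y.base ≠ 0 := fun e => hne (by rw [liftK, e, smul_zero])
  have hd : dist x.base y.base ≤ R := not_lt.1 fun hlt => hb (hR _ _ hlt)
  have hc : cpl hG x.base y.base x.w y.w ≠ 0 := fun e => hne (by
    rw [liftK, wt, e, zero_mul, Complex.ofReal_zero, zero_smul])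
  have hmem : ⌈dist x.base y.base⌉₊ ∈ Finset.range (⌈R⌉₊ + 1) :=
    Finset.mem_range_succ_iff.2 (Nat.ceil_mono hd)
  have h1 : dist x y ≤ cScale hG T ⌈dist x.base y.base⌉₊ := cpl_near hG _ _ _ _ hc
  have h2 := Finset.single_le_sum (f := fun m => |cScale hG T m|) (fun m _ => abs_nonneg _) hmem
  have h3 : cScale hG T ⌈dist x.base y.base⌉₊ ≤ |cScale hG T ⌈dist x.base y.base⌉₊| := le_abs_self _
  exact absurd (h1.trans (h3.trans h2)) (not_le.2 h)

open Classical in
/-- The lifted operator. -/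
noncomputable def lift (hb : BoundedGeometry (Vert T)) (S : RoeSpace Base →L[ℂ] RoeSpace Base) :
    RoeSpace (Vert T) →L[ℂ] RoeSpace (Vert T) :=
  if h : IsRoe S then
    blockOp hb (liftR hG T ((isRoe_iff S).1 h).1.choose) (liftK hG S) (norm_liftK_le hG S)
  else 0

variable (hb : BoundedGeometry (Vert T)) {S S' : RoeSpace Base →L[ℂ] RoeSpace Base}

theorem blk_lift (h : IsRoe S) (x y : Vert T) :
    blk (lift hG hb S) x y = ((wt hG x y : ℝ) : ℂ) • blk S x.base y.base := by
  rw [lift, dif_pos h]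
  exact blk_blockOp hb (norm_liftK_le hG S)
    (liftK_far hG ((isRoe_iff S).1 h).1.choose_spec) x y

theorem isRoe_lift (h : IsRoe S) : IsRoe (lift hG hb S) := by
  rw [lift, dif_pos h]
  refine isRoe_blockOp hb (norm_liftK_le hG S) (liftK_far hG ((isRoe_iff S).1 h).1.choose_spec)
    fun x y => ?_
  exact (((isRoe_iff S).1 h).2 _ _).smul ((wt hG x y : ℝ) : ℂ)

theorem rows_lift (h : IsRoe S) :
    HasRows (lift hG hb S) fun u v => ((scal T u v : ℝ) : ℂ) • blk S u v := by
  intro x v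
  simp only [blk_lift hG hb h]
  show ∑ b, ((wt hG x (mkV v b) : ℝ) : ℂ) • blk S x.base v = _
  rw [← Finset.sum_smul, ← Complex.ofReal_sum, sum_wt_row]

theorem rows_lift_star (h : IsRoe S) :
    HasRows (star (lift hG hb S)) fun u v => ((scal T u v : ℝ) : ℂ) • blk (star S) u v := by
  intro x v
  simp only [blk_star, blk_lift hG hb h, map_smulₛₗ, Complex.conj_ofReal]
  show ∑ b, ((wt hG (mkV v b) x : ℝ) : ℂ) • ContinuousLinearMap.adjoint (blk S v x.base) = _
  rw [← Finset.sum_smul, ← Complex.ofReal_sum, sum_wt_col]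

theorem lift_add (h : IsRoe S) (h' : IsRoe S') :
    lift hG hb (S + S') = lift hG hb S + lift hG hb S' :=
  blk_ext fun x y => by
    rw [blk_lift hG hb (isRoe_add h h'), blk_add, blk_add, blk_lift hG hb h, blk_lift hG hb h',
      smul_add]

theorem lift_smul (c : ℂ) (h : IsRoe S) : lift hG hb (c • S) = c • lift hG hb S :=
  blk_ext fun x y => by
    rw [blk_lift hG hb (isRoe_smul c h), blk_smul, blk_smul, blk_lift hG hb h, smul_comm]

theorem rows_mul (hB : BoundedGeometry Base) (h : IsRoe S) (h' : IsRoe S') :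
    HasRows (lift hG hb S * lift hG hb S') fun u v =>
      ((scal T u v : ℝ) : ℂ) • blk (S * S') u v := by
  classical
  intro x v
  obtain ⟨R', hR'⟩ := ((isRoe_iff S').1 h').1
  set F := ballF hB R' v with hF
  have hout : ∀ u, u ∉ F → blk S' u v = 0 := fun u hu => by
    rw [hF, mem_ballF, not_le] at hu
    exact hR' u v hu
  let e : (Σ u : Base, T.Fib u.n u.l) ↪ Vert T := ⟨fun p => mkV p.1 p.2, fun p q hpq => by
    obtain ⟨⟨n, z, l⟩, a⟩ := p
    obtain ⟨⟨n', z', l'⟩, a'⟩ := q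
    simp only [mkV, Vert.mk.injEq] at hpq
    obtain ⟨rfl, hz, rfl, ha⟩ := hpq
    cases hz; cases ha; rfl⟩
  set G := ((F.sigma fun u => (Finset.univ : Finset (T.Fib u.n u.l))).map e) with hG'
  have hzero : ∀ b z, z ∉ G → blk (lift hG hb S') z (mkV v b) = 0 := by
    intro b z hz
    have hzb : z.base ∉ F := fun hzb => hz (Finset.mem_map.2
      ⟨⟨z.base, z.w⟩, Finset.mem_sigma.2 ⟨hzb, Finset.mem_univ _⟩, rfl⟩)
    rw [blk_lift hG hb h', show (mkV v b).base = v from rfl, hout _ hzb, smul_zero]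
  simp only [fun b => blk_mul (S := lift hG hb S) x (hzero b)]
  rw [Finset.sum_comm, hG', Finset.sum_map, Finset.sum_sigma]
  rw [blk_mul x.base hout, Finset.smul_sum]
  refine Finset.sum_congr rfl fun u _ => ?_
  have hrow : ∀ c, ∑ b, (blk (lift hG hb S) x (mkV u c)).comp
      (blk (lift hG hb S') (mkV u c) (mkV v b)) = (blk (lift hG hb S) x (mkV u c)).comp
        (((scal T u v : ℝ) : ℂ) • blk S' u v) := fun c => by
    rw [← ContinuousLinearMap.comp_finsetSum, rows_lift hG hb h' (mkV u c) v]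
    rfl
  show ∑ c, ∑ b, (blk (lift hG hb S) x (mkV u c)).comp
    (blk (lift hG hb S') (mkV u c) (mkV v b)) = _
  simp only [hrow]
  rw [← ContinuousLinearMap.finsetSum_comp, rows_lift hG hb h x u,
    ContinuousLinearMap.comp_smul, ContinuousLinearMap.smul_comp, smul_smul,
    ← Complex.ofReal_mul, mul_comm, scal_mul]

end VP212.Avg
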