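import Vale.Agent.P212.Avg.Angle

/-!
P212 averaging: three projections with pairwise angle at most `9 / 20` have a gap, so the powers
of `1 - L / 3`, `L = ∑ (1 - Pᵢ)`, converge geometrically to the projection on the common range.
-/

namespace VP212.Avg

open Filter Topology

variable {H : Type*} [NormedAddCommGroup H] [InnerProductSpace ℂ H] [CompleteSpace H]

/-- Three projections, pairwise at angle at most `9 / 20`. -/
structure GapTriple (P : Fin 3 → (H →L[ℂ] H)) : Prop where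
  sa : ∀ i, star (P i) = P i
  idem : ∀ i, P i * P i = P i
  angle : ∀ i ξ, -(9 / 40 : ℝ) * (‖(1 - P i) ξ‖ ^ 2 + ‖(1 - P (i + 1)) ξ‖ ^ 2) ≤
    (inner ℂ ((1 - P i) ξ) ((1 - P (i + 1)) ξ)).re

/-- The sum of the complements. -/
def lap (P : Fin 3 → (H →L[ℂ] H)) : H →L[ℂ] H := ∑ i, (1 - P i)

/-- The averaging step. -/
noncomputable def step (P : Fin 3 → (H →L[ℂ] H)) : H →L[ℂ] H := 1 - (3 : ℂ)⁻¹ • lap P

/-- The sum of the squares of the complements at a vector. -/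
noncomputable def energy (P : Fin 3 → (H →L[ℂ] H)) (ξ : H) : ℝ := ∑ i, ‖(1 - P i) ξ‖ ^ 2

namespace GapTriple

variable {P : Fin 3 → (H →L[ℂ] H)} (h : GapTriple P)
include h

theorem inner_compl (i : Fin 3) (x y : H) :
    inner ℂ x ((1 - P i) y) = inner ℂ ((1 - P i) x) ((1 - P i) y) := by
  have e : star (1 - P i) = 1 - P i := by rw [star_sub, star_one, h.sa]
  have e2 : (1 - P i) * (1 - P i) = 1 - P i := by
    rw [sub_mul, mul_sub, mul_sub, one_mul, mul_one, one_mul, h.idem, sub_self, sub_zero]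
  conv_rhs => rw [re_inner_star, e, ← mul_apply_eq_comp, e2]
  rw [re_inner_star, e]

theorem energy_eq (ξ : H) : energy P ξ = (inner ℂ ξ (lap P ξ)).re := by
  simp only [energy, lap, sum_apply, inner_sum, Complex.re_sum]
  refine Finset.sum_congr rfl fun i _ => ?_
  rw [h.inner_compl]
  exact @norm_sq_eq_re_inner ℂ H _ _ _ ((1 - P i) ξ)

theorem lap_sq (ξ : H) : energy P ξ / 10 ≤ ‖lap P ξ‖ ^ 2 := by
  have p0 := h.angle 0 ξ
  have p1 := h.angle 1 ξ
  have p2 := h.angle 2 ξ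
  rw [show (0 : Fin 3) + 1 = 1 from rfl] at p0
  rw [show (1 : Fin 3) + 1 = 2 from rfl] at p1
  rw [show (2 : Fin 3) + 1 = 0 from rfl] at p2
  simp only [energy, lap, Fin.sum_univ_three, add_apply]
  set a := (1 - P 0) ξ
  set b := (1 - P 1) ξ
  set c := (1 - P 2) ξ
  have n1 : ‖a + b + c‖ ^ 2 = ‖a + b‖ ^ 2 + 2 * (inner ℂ (a + b) c).re + ‖c‖ ^ 2 :=
    @norm_add_sq ℂ H _ _ _ (a + b) c
  have n2 : ‖a + b‖ ^ 2 = ‖a‖ ^ 2 + 2 * (inner ℂ a b).re + ‖b‖ ^ 2 :=
    @norm_add_sq ℂ H _ _ _ a b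
  have n3 : (inner ℂ (a + b) c).re = (inner ℂ c a).re + (inner ℂ b c).re := by
    rw [inner_add_left, Complex.add_re, ← inner_conj_symm a c, Complex.conj_re]
  rw [n1, n2, n3]
  linarith

omit [CompleteSpace H] h in
theorem lap_apply_le (ξ : H) : ‖lap P ξ‖ ^ 2 ≤ 3 * energy P ξ := by
  simp only [energy, lap, Fin.sum_univ_three, add_apply]
  have := norm_add₃_le (a := (1 - P 0) ξ) (b := (1 - P 1) ξ) (c := (1 - P 2) ξ)
  have := norm_nonneg ((1 - P 0) ξ + (1 - P 1) ξ + (1 - P 2) ξ)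
  nlinarith [sq_nonneg (‖(1 - P 0) ξ‖ - ‖(1 - P 1) ξ‖), sq_nonneg (‖(1 - P 1) ξ‖ - ‖(1 - P 2) ξ‖),
    sq_nonneg (‖(1 - P 0) ξ‖ - ‖(1 - P 2) ξ‖)]

theorem energy_le (ξ : H) : energy P ξ ≤ 3 * ‖ξ‖ ^ 2 := by
  have hi : ∀ i, ‖(1 - P i) ξ‖ ≤ ‖ξ‖ := fun i => by
    have h1 : ‖(1 - P i) ξ‖ ^ 2 ≤ ‖ξ‖ * ‖(1 - P i) ξ‖ := by
      have e : ‖(1 - P i) ξ‖ ^ 2 = (inner ℂ ξ ((1 - P i) ξ)).re := by
        rw [h.inner_compl]
        exact @norm_sq_eq_re_inner ℂ H _ _ _ ((1 - P i) ξ)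
      rw [e]
      exact (Complex.re_le_norm _).trans (norm_inner_le_norm _ _)
    rcases (norm_nonneg ((1 - P i) ξ)).eq_or_lt with h0 | h0
    · rw [← h0]; exact norm_nonneg _
    · nlinarith
  simp only [energy, Fin.sum_univ_three]
  linarith [pow_le_pow_left₀ (norm_nonneg _) (hi 0) 2, pow_le_pow_left₀ (norm_nonneg _) (hi 1) 2,
    pow_le_pow_left₀ (norm_nonneg _) (hi 2) 2]

theorem lap_star : star (lap P) = lap P := by
  simp [lap, h.sa]

theorem energy_step (ξ : H) : energy P (step P ξ) ≤ 29 / 30 * energy P ξ := by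
  have e : step P ξ = ξ - (3 : ℂ)⁻¹ • lap P ξ := rfl
  have hs : inner ℂ ξ (lap P (lap P ξ)) = inner ℂ (lap P ξ) (lap P ξ) := by
    rw [re_inner_star, h.lap_star]
  have e2 : energy P (step P ξ) =
      energy P ξ - 2 / 3 * ‖lap P ξ‖ ^ 2 + energy P (lap P ξ) / 9 := by
    rw [h.energy_eq (step P ξ), h.energy_eq ξ, h.energy_eq (lap P ξ), e, map_sub, map_smul]
    simp only [inner_sub_left, inner_sub_right, inner_smul_left, inner_smul_right, hs]
    have e3 : (inner ℂ (lap P ξ) (lap P ξ)).re = ‖lap P ξ‖ ^ 2 :=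
      (@norm_sq_eq_re_inner ℂ H _ _ _ (lap P ξ)).symm
    simp [Complex.mul_re, Complex.mul_im, map_ofNat, pow_two]
    ring
  rw [e2]
  linarith [h.energy_le (lap P ξ), h.lap_sq ξ]

theorem energy_pow (k : ℕ) (ξ : H) :
    energy P ((step P ^ k) ξ) ≤ (29 / 30) ^ k * (3 * ‖ξ‖ ^ 2) := by
  induction k with
  | zero => simpa using h.energy_le ξ
  | succ k ih =>
    rw [pow_succ', pow_succ', mul_apply_eq_comp, mul_assoc]
    exact (h.energy_step _).trans (mul_le_mul_of_nonneg_left ih (by norm_num))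

theorem lap_pow (k : ℕ) : ‖lap P * step P ^ k‖ ≤ 3 * (59 / 60) ^ k := by
  refine ContinuousLinearMap.opNorm_le_bound _ (by positivity) fun ξ => ?_
  rw [mul_apply_eq_comp]
  refine (pow_le_pow_iff_left₀ (norm_nonneg _) (by positivity) two_ne_zero).1 ?_
  have hp : (29 / 30 : ℝ) ^ k ≤ ((59 / 60 : ℝ) ^ k) ^ 2 := by
    rw [← pow_mul, mul_comm, pow_mul]
    exact pow_le_pow_left₀ (by norm_num) (by norm_num) k
  nlinarith [lap_apply_le (P := P) ((step P ^ k) ξ), h.energy_pow k ξ,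
    mul_le_mul_of_nonneg_right hp (sq_nonneg ‖ξ‖), sq_nonneg ‖ξ‖]

theorem dist_step (k : ℕ) : dist (step P ^ k) (step P ^ (k + 1)) ≤ 1 * (59 / 60) ^ k := by
  have e : step P ^ k - step P ^ (k + 1) = (3 : ℂ)⁻¹ • (lap P * step P ^ k) := by
    rw [pow_succ']
    simp [step, sub_mul]
  rw [dist_eq_norm, e, norm_smul]
  have h3 : ‖(3 : ℂ)⁻¹‖ = (3 : ℝ)⁻¹ := by simp
  rw [h3]
  linarith [h.lap_pow k]

/-- The limit projection, with the rate. -/
theorem exists_proj :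
    ∃ Q : H →L[ℂ] H, star Q = Q ∧ (∀ i, P i * Q = Q) ∧
      (∀ ξ, (∀ i, P i ξ = ξ) → Q ξ = ξ) ∧ ∀ k, ‖step P ^ k - Q‖ ≤ 60 * (59 / 60) ^ k := by
  obtain ⟨Q, hQ⟩ := cauchySeq_tendsto_of_complete
    (cauchySeq_of_le_geometric (59 / 60) 1 (by norm_num) h.dist_step)
  have hrate : ∀ k, ‖step P ^ k - Q‖ ≤ 60 * (59 / 60) ^ k := fun k => by
    have := dist_le_of_le_geometric_of_tendsto (59 / 60) 1 (by norm_num) h.dist_step hQ k
    rw [dist_eq_norm] at this
    exact this.trans (le_of_eq (by ring))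
  have hs : star (step P) = step P := by
    simp [step, star_smul, h.lap_star]
  refine ⟨Q, ?_, fun i => ?_, fun ξ hξ => ?_, hrate⟩
  · refine tendsto_nhds_unique ((continuous_star.tendsto Q).comp hQ) (hQ.congr fun k => ?_)
    simp [star_pow, hs]
  · have h0 : lap P * Q = 0 := by
      refine tendsto_nhds_unique (((continuous_const_mul (lap P)).tendsto Q).comp hQ) ?_
      refine squeeze_zero_norm h.lap_pow ?_
      simpa using (tendsto_pow_atTop_nhds_zero_of_lt_one (r := (59 / 60 : ℝ))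
        (by norm_num) (by norm_num)).const_mul 3
    refine ContinuousLinearMap.ext fun ξ => ?_
    have he : energy P (Q ξ) = 0 := by
      rw [h.energy_eq, ← mul_apply_eq_comp, h0]
      simp
    have hi := (Finset.sum_eq_zero_iff_of_nonneg fun i _ => sq_nonneg ‖(1 - P i) (Q ξ)‖).1 he i
      (Finset.mem_univ i)
    rw [sq_eq_zero_iff, norm_eq_zero, sub_apply, one_apply_eq_self, sub_eq_zero] at hi
    exact hi.symm
  · have hl : lap P ξ = 0 := by
      simp [lap, hξ]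
    have hk : ∀ k, (step P ^ k) ξ = ξ := fun k => by
      induction k with
      | zero => simp
      | succ k ih =>
        rw [pow_succ', mul_apply_eq_comp, ih]
        simp [step, hl]
    exact tendsto_nhds_unique (((ContinuousLinearMap.apply ℂ H ξ).continuous.tendsto Q).comp hQ)
      (tendsto_const_nhds.congr fun k => (hk k).symm)

end GapTriple

end VP212.Avg
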