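import Vale.Agent.P212.Avg.Extend
import Vale.Agent.P212.Avg.Limit
import Vale.Agent.P212.Base.Ops

/-!
P212 averaging: the letters as permutations of the space, and the projection onto the vectors
they fix in each representation.
-/

open scoped InnerProductSpace

namespace VP212.Avg

variable {T : Tower}

/-- The vertex over `v` in the fibre position `b`. -/
def mkV (v : Base) (b : T.Fib v.n v.l) : Vert T := ⟨v.n, v.z, v.l, b⟩

theorem mkV_inj (v : Base) : Function.Injective (mkV (T := T) v) := fun b b' h => by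
  simpa [mkV] using h

theorem exists_mkV {v : Base} {y : Vert T} (h : y.base = v) : ∃ b, mkV v b = y := by
  subst h
  exact ⟨y.w, rfl⟩

/-- A permutation acting fibrewise. -/
def fibrePerm (σ : ∀ n l, Equiv.Perm (T.Fib n l)) : Equiv.Perm (Vert T) where
  toFun x := ⟨x.n, x.z, x.l, σ x.n x.l x.w⟩
  invFun x := ⟨x.n, x.z, x.l, (σ x.n x.l)⁻¹ x.w⟩
  left_inv x := by cases x; simp
  right_inv x := by cases x; simp

theorem fibrePerm_one : fibrePerm (fun n l => (1 : Equiv.Perm (T.Fib n l))) = 1 :=
  Equiv.ext fun _ => rfl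

theorem fibrePerm_mul (σ τ : ∀ n l, Equiv.Perm (T.Fib n l)) :
    fibrePerm (fun n l => σ n l * τ n l) = fibrePerm σ * fibrePerm τ :=
  Equiv.ext fun _ => rfl

/-- A letter as a permutation of the vertices. -/
def gP (T : Tower) (g : Gen) : Equiv.Perm (Vert T) := fibrePerm fun n l => T.act n l g

theorem gP_apply (g : Gen) (x : Vert T) : gP T g x = stepG g x := rfl

/-- A word as a permutation of the vertices. -/
def wP (T : Tower) (w : List Gen) : Equiv.Perm (Vert T) := (w.map (gP T)).prod

theorem wP_eq (w : List Gen) : wP T w = fibrePerm fun n l => wordPerm (T.act n l) w := by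
  induction w with
  | nil => exact (fibrePerm_one).symm
  | cons g w ih =>
    rw [wP, List.map_cons, List.prod_cons, ← wP, ih, gP, ← fibrePerm_mul]
    simp [wordPerm]

theorem wP_foldr (w : List Gen) (x : Vert T) : wP T w x = w.foldr stepG x := by
  induction w with
  | nil => rfl
  | cons g w ih => rw [wP, List.map_cons, List.prod_cons, Equiv.Perm.mul_apply, ← wP, ih]; rfl

theorem wP_base (w : List Gen) (x : Vert T) : (wP T w x).base = x.base := by
  rw [wP_eq]; rfl

/-- The central permutations. -/
def zP (T : Tower) (i : Fin 3) (c : Coef2) : Equiv.Perm (Vert T) :=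
  fibrePerm fun n l => T.ctr n l i c

theorem zP_word (i : Fin 3) (c : Coef2) : zP T i c = wP T (T.ctrWord i c) := by
  rw [wP_eq, zP]
  simp only [T.ctr_word]

theorem act_zero (n l : ℕ) (i : Fin 3) : T.act n l (i, 0) = 1 := by
  have h := T.act_add n l i 0 0
  rwa [add_zero, left_eq_mul] at h

theorem act_neg (n l : ℕ) (i : Fin 3) (a : Coef) : T.act n l (i, -a) = (T.act n l (i, a))⁻¹ := by
  refine eq_inv_of_mul_eq_one_left ?_
  rw [← T.act_add, neg_add_cancel, act_zero]

theorem ctr_zero (n l : ℕ) (i : Fin 3) : T.ctr n l i 0 = 1 := by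
  have h := T.ctr_add n l i 0 0
  rwa [add_zero, left_eq_mul] at h

theorem ctr_neg (n l : ℕ) (i : Fin 3) (a : Coef2) : T.ctr n l i (-a) = (T.ctr n l i a)⁻¹ := by
  refine eq_inv_of_mul_eq_one_left ?_
  rw [← T.ctr_add, neg_add_cancel, ctr_zero]

variable (hG : GeometrySpec)
include hG

theorem bdd_gP (g : Gen) : Bdd (gP T g) := by
  obtain ⟨_, _, _, _, hstep, _⟩ := hG T
  exact ⟨1, fun x => by rw [gP_apply]; exact hstep g x⟩

theorem bdd_wP (w : List Gen) : Bdd (wP T w) := by
  induction w with
  | nil => exact bdd_one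
  | cons g w ih =>
    rw [wP, List.map_cons, List.prod_cons]
    exact (bdd_gP hG g).mul ih

theorem bdd_zP (i : Fin 3) (c : Coef2) : Bdd (zP T i c) := by
  rw [zP_word]; exact bdd_wP hG _

variable (π : RoeRep (Vert T))

theorem urep_act (i : Fin 3) : URep fun a : Coef => ext π (gP T (i, a)) where
  one := by
    have e : gP T (i, 0) = 1 := by
      simp only [gP, act_zero]; exact fibrePerm_one
    rw [e, ext_one]
  add a b := by
    rw [← ext_mul π (bdd_gP hG _) (bdd_gP hG _)]
    simp only [gP, T.act_add, fibrePerm_mul]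
  adj a := by
    rw [star_ext π (bdd_gP hG _)]
    have e : gP T (i, -a) = (gP T (i, a))⁻¹ := by
      refine eq_inv_of_mul_eq_one_left ?_
      simp only [gP, act_neg, ← fibrePerm_mul, inv_mul_cancel]
      exact fibrePerm_one
    rw [e]

theorem urep_ctr (i : Fin 3) : URep fun c : Coef2 => ext π (zP T i c) where
  one := by
    have e : zP T i 0 = 1 := by
      simp only [zP, ctr_zero]; exact fibrePerm_one
    rw [e, ext_one]
  add a b := by
    rw [← ext_mul π (bdd_zP hG _ _) (bdd_zP hG _ _)]
    simp only [zP, T.ctr_add, fibrePerm_mul]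
  adj a := by
    rw [star_ext π (bdd_zP hG _ _)]
    have e : zP T i (-a) = (zP T i a)⁻¹ := by
      refine eq_inv_of_mul_eq_one_left ?_
      simp only [zP, ctr_neg, ← fibrePerm_mul, inv_mul_cancel]
      exact fibrePerm_one
    rw [e]

omit hG in
theorem tens_spans (χ : AddChar Coef2 ℂ) (h : ∀ a b, χ (tens a b) = 1) : χ = 1 := by
  classical
  ext c
  rw [AddChar.one_apply, ← Finset.univ_sum_single c]
  refine Finset.sum_induction _ (fun z => χ z = 1)
    (fun z z' hz hz' => by rw [AddChar.map_add_eq_mul, hz, hz', mul_one])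
    (AddChar.map_zero_eq_one χ) fun p _ => ?_
  have e : Pi.single p (c p) = tens (Pi.single p.1 (c p)) (Pi.single p.2 1) := by
    funext q
    obtain ⟨i, j⟩ := q
    obtain ⟨p1, p2⟩ := p
    simp only [tens, Pi.single_apply, Prod.mk.injEq]
    split_ifs <;> simp_all
  rw [e, h]

omit hG in
theorem card_coef : Fintype.card Coef = 5 ^ 7 := by
  simp [Coef, ZMod.card]

theorem hpair (i : Fin 3) :
    HPair tens (fun a => ext π (gP T (i, a))) (fun a => ext π (gP T (i + 1, a)))
      (fun c => ext π (zP T i c)) where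
  hu := urep_act hG π i
  hv := urep_act hG π (i + 1)
  hz := urep_ctr hG π i
  cu c a := by
    show ext π (zP T i c) * ext π (gP T (i, a)) = ext π (gP T (i, a)) * ext π (zP T i c)
    rw [← ext_mul π (bdd_zP hG _ _) (bdd_gP hG _), ← ext_mul π (bdd_gP hG _) (bdd_zP hG _ _)]
    simp only [gP, zP, ← fibrePerm_mul, (T.ctr_comm_left _ _ i c a).eq]
  cv c a := by
    show ext π (zP T i c) * ext π (gP T (i + 1, a)) = ext π (gP T (i + 1, a)) * ext π (zP T i c)
    rw [← ext_mul π (bdd_zP hG _ _) (bdd_gP hG _), ← ext_mul π (bdd_gP hG _) (bdd_zP hG _ _)]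
    simp only [gP, zP, ← fibrePerm_mul, (T.ctr_comm_right _ _ i c a).eq]
  heis a b := by
    rw [← ext_mul π (bdd_gP hG _) (bdd_gP hG _), ← ext_mul π (bdd_gP hG _) (bdd_gP hG _),
      ← ext_mul π (bdd_zP hG _ _) ((bdd_gP hG _).mul (bdd_gP hG _))]
    simp only [gP, zP, ← fibrePerm_mul, T.heis]
  add_left a a' b := funext fun p => by simp [tens, add_mul]
  add_right a b b' := funext fun p => by simp [tens, mul_add]
  spans := tens_spans

/-- The averages over the three groups. -/
noncomputable def pr (i : Fin 3) : π.carrier →L[ℂ] π.carrier :=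
  avg fun a : Coef => ext π (gP T (i, a))

omit hG in
theorem pr_eq (i : Fin 3) :
    pr π i = avg fun a : Coef => ext π (gP T (i, a)) := rfl

theorem gapTriple : GapTriple (pr π) where
  sa i := (urep_act hG π i).star_avg
  idem i := (urep_act hG π i).idem
  angle i ξ := (hpair hG π i).angle card_coef ξ

/-- The projection onto the fixed vectors. -/
noncomputable def proj : π.carrier →L[ℂ] π.carrier := (gapTriple hG π).exists_proj.choose

theorem star_proj : star (proj hG π) = proj hG π :=
  (gapTriple hG π).exists_proj.choose_spec.1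

theorem proj_rate (k : ℕ) : ‖step (pr π) ^ k - proj hG π‖ ≤ 60 * (59 / 60) ^ k :=
  (gapTriple hG π).exists_proj.choose_spec.2.2.2 k

theorem proj_fix {ξ : π.carrier} (h : ∀ g, ext π (gP T g) ξ = ξ) : proj hG π ξ = ξ := by
  refine (gapTriple hG π).exists_proj.choose_spec.2.2.1 ξ fun i => ?_
  rw [pr_eq, avg_apply]
  simp only [h, Finset.sum_const, Finset.card_univ, ← Nat.cast_smul_eq_nsmul ℂ, smul_smul]
  rw [inv_mul_cancel₀ (Nat.cast_ne_zero.2 Fintype.card_ne_zero), one_smul]

theorem gP_mul_proj (g : Gen) : ext π (gP T g) * proj hG π = proj hG π := by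
  obtain ⟨i, a⟩ := g
  have h := (gapTriple hG π).exists_proj.choose_spec.2.1 i
  rw [show (gapTriple hG π).exists_proj.choose = proj hG π from rfl] at h
  conv_lhs => rw [← h, ← mul_assoc, pr_eq, (urep_act hG π i).mul_avg_self]
  rw [← pr_eq, h]

theorem wP_mul_proj (w : List Gen) : ext π (wP T w) * proj hG π = proj hG π := by
  induction w with
  | nil => rw [show wP T [] = 1 from rfl, ext_one, one_mul]
  | cons g w ih =>
    rw [show wP T (g :: w) = gP T g * wP T w from rfl,
      ext_mul π (bdd_gP hG g) (bdd_wP hG w), mul_assoc, ih, gP_mul_proj hG π g]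

end VP212.Avg
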