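import Vale.Agent.P212.Avg.Diag

/-!
P212 averaging: the homomorphism from the maximal Roe algebra of the collapsed space to that of
the space, fixing the operators supported at the roots.
-/

open scoped InnerProductSpace
open Filter Topology

namespace VP212

namespace Avg

variable {T : Tower} (hG : GeometrySpec)
include hG

theorem geo_bounded : BoundedGeometry (Vert T) := (hG T).2.1

theorem geo_base (T : Tower) : BoundedGeometry Base := (hG T).2.2.1

/-- The lift with the bounded geometry supplied. -/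
noncomputable def lift' (S : RoeSpace Base →L[ℂ] RoeSpace Base) :
    RoeSpace (Vert T) →L[ℂ] RoeSpace (Vert T) :=
  lift hG (geo_bounded hG) S

theorem isRoe_lift' {S : RoeSpace Base →L[ℂ] RoeSpace Base} (h : IsRoe S) :
    IsRoe (lift' (T := T) hG S) := isRoe_lift hG _ h

/-- Constant fibre row sums commute with the projection. -/
theorem proj_absorb {Z : RoeSpace (Vert T) →L[ℂ] RoeSpace (Vert T)} (hZ : IsRoe Z)
    {t : Base → Base → (L2N →L[ℂ] L2N)} (ht : HasRows Z t) (π : RoeRep (Vert T)) :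
    proj hG π * π.π Z * proj hG π = π.π Z * proj hG π := by
  have hg : ∀ g, ext π (gP T g) * (π.π Z * proj hG π) = π.π Z * proj hG π := fun g => by
    have h0 := null hG (isRoe_sub ((bdd_gP hG g).roe_left hZ) hZ)
      ((ht.perm (gP T g) fun x => rfl).sub ht) π
    rw [rep_sub π ((bdd_gP hG g).roe_left hZ) hZ, sub_mul, sub_eq_zero] at h0
    rw [← mul_assoc, ext_comp π (bdd_gP hG g) hZ, h0]
  rw [mul_assoc]
  exact ContinuousLinearMap.ext fun ξ =>
    proj_fix hG π fun g => DFunLike.congr_fun (hg g) ξ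

theorem rep_congr {Z Z' : RoeSpace (Vert T) →L[ℂ] RoeSpace (Vert T)} (hZ : IsRoe Z)
    (hZ' : IsRoe Z') {t : Base → Base → (L2N →L[ℂ] L2N)} (h : HasRows Z t) (h' : HasRows Z' t)
    (π : RoeRep (Vert T)) : π.π Z * proj hG π = π.π Z' * proj hG π := by
  have h0 := null hG (isRoe_sub hZ hZ') (h.sub h') π
  rwa [rep_sub π hZ hZ', sub_mul, sub_eq_zero] at h0

/-- A representation of `C[Base]` from one of `C[Vert T]`. -/
noncomputable def down (π : RoeRep (Vert T)) : RoeRep Base where
  carrier := π.carrier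
  π S := π.π (lift' hG S) * proj hG π
  map_add S S' h h' := by
    unfold lift'
    rw [lift_add hG _ h h', π.map_add _ _ (isRoe_lift hG _ h) (isRoe_lift hG _ h'), add_mul]
  map_smul c S h := by
    unfold lift'
    rw [lift_smul hG _ c h, π.map_smul c _ (isRoe_lift hG _ h), smul_mul_assoc]
  map_mul S S' h h' := by
    have hL := isRoe_lift' (T := T) hG h
    have hL' := isRoe_lift' (T := T) hG h'
    rw [mul_assoc (π.π (lift' hG S)) (proj hG π),
      ← mul_assoc (proj hG π) (π.π (lift' hG S')),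
      proj_absorb hG hL' (rows_lift hG _ h') π, ← mul_assoc, ← π.map_mul _ _ hL hL']
    exact (rep_congr hG (isRoe_mul (geo_bounded hG) hL hL')
      (isRoe_lift' hG (isRoe_mul (geo_base hG T) h h'))
      (rows_mul hG (geo_bounded hG) (geo_base hG T) h h')
      (rows_lift hG _ (isRoe_mul (geo_base hG T) h h')) π).symm
  map_star S h := by
    have hL := isRoe_lift' (T := T) hG h
    have e1 := proj_absorb hG hL (rows_lift hG _ h) π
    have e2 := proj_absorb hG (isRoe_star hL) (rows_lift_star hG _ h) π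
    have e3 := congrArg star e1
    rw [star_mul, star_mul, star_proj hG π, ← π.map_star _ hL, star_mul, star_proj hG π,
      ← π.map_star _ hL, ← mul_assoc, e2] at e3
    rw [star_mul, star_proj hG π, ← π.map_star _ hL, ← e3]
    exact rep_congr hG (isRoe_lift' hG (isRoe_star h)) (isRoe_star hL)
      (rows_lift hG _ (isRoe_star h)) (rows_lift_star hG _ h) π

/-- The averaging map on operators of the universal spaces. -/
noncomputable def phi (a : UnivSpace Base →L[ℂ] UnivSpace Base) :
    UnivSpace (Vert T) →L[ℂ] UnivSpace (Vert T) :=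
  diag (fun π : RoeRep (Vert T) => (comp (down hG π) a : π.carrier →L[ℂ] π.carrier)) ‖a‖
    (norm_nonneg a) fun π => norm_comp_le (down hG π) a

theorem phi_apply (a : UnivSpace Base →L[ℂ] UnivSpace Base) (v : UnivSpace (Vert T))
    (π : RoeRep (Vert T)) : phi hG a v π = comp (down hG π) a (v π) := rfl

theorem phi_add (a b : UnivSpace Base →L[ℂ] UnivSpace Base) :
    phi (T := T) hG (a + b) = phi hG a + phi hG b := by
  refine ContinuousLinearMap.ext fun v => lp.ext (funext fun π => ?_)
  rw [phi_apply, comp_add]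
  rfl

theorem phi_smul (c : ℂ) (a : UnivSpace Base →L[ℂ] UnivSpace Base) :
    phi (T := T) hG (c • a) = c • phi hG a := by
  refine ContinuousLinearMap.ext fun v => lp.ext (funext fun π => ?_)
  rw [phi_apply, comp_smul]
  rfl

theorem phi_one : phi (T := T) hG 1 = 1 := by
  refine ContinuousLinearMap.ext fun v => lp.ext (funext fun π => ?_)
  rw [phi_apply, comp_one]
  rfl

theorem phi_mul (a : UnivSpace Base →L[ℂ] UnivSpace Base)
    {b : UnivSpace Base →L[ℂ] UnivSpace Base} (hb : IsDiag b) :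
    phi (T := T) hG (a * b) = phi hG a * phi hG b := by
  refine ContinuousLinearMap.ext fun v => lp.ext (funext fun π => ?_)
  rw [phi_apply, comp_mul _ a hb]
  rfl

theorem norm_phi_le (a : UnivSpace Base →L[ℂ] UnivSpace Base) : ‖phi (T := T) hG a‖ ≤ ‖a‖ :=
  ContinuousLinearMap.opNorm_le_bound _ (norm_nonneg a) fun v =>
    norm_le_comp v (norm_nonneg a) fun π => by
      rw [phi_apply]
      exact (ContinuousLinearMap.le_opNorm _ _).trans
        (mul_le_mul_of_nonneg_right (norm_comp_le _ a) (norm_nonneg _))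

theorem phi_continuous : Continuous (phi (T := T) hG) := by
  refine (LipschitzWith.of_dist_le_mul (K := 1) fun a b => ?_).continuous
  have e : phi (T := T) hG a - phi hG b = phi hG (a - b) := by
    rw [sub_eq_iff_eq_add, ← phi_add, sub_add_cancel]
  rw [dist_eq_norm, dist_eq_norm, e, NNReal.coe_one, one_mul]
  exact norm_phi_le hG _

omit hG in
theorem rep_avgR {X V : Type} [MetricSpace X] [Fintype V] (π : RoeRep X) (σ : V → Equiv.Perm X)
    (hσ : ∀ a, Bdd (σ a)) {Z : RoeSpace X →L[ℂ] RoeSpace X} (h : IsRoe Z) :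
    IsRoe (Z - (Fintype.card V : ℂ)⁻¹ • ∑ a, Z * permOp (σ a)) ∧
      π.π (Z - (Fintype.card V : ℂ)⁻¹ • ∑ a, Z * permOp (σ a)) =
        π.π Z * (1 - avg fun a => ext π (σ a)) := by
  have h1 : IsRoe (∑ a, Z * permOp (σ a)) := isRoe_sum _ fun a _ => (hσ a).roe_right h
  refine ⟨isRoe_sub h (isRoe_smul _ h1), ?_⟩
  rw [rep_sub π h (isRoe_smul _ h1), π.map_smul _ _ h1,
    rep_sum π _ (fun a _ => (hσ a).roe_right h), mul_sub, mul_one, mul_avg, avg]
  simp only [comp_ext π (hσ _) h]

omit hG in
/-- One averaging step over three groups on the right. -/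
noncomputable def stepR {X V : Type} [Fintype V] (σ : Fin 3 → V → Equiv.Perm X)
    (Z : RoeSpace X →L[ℂ] RoeSpace X) : RoeSpace X →L[ℂ] RoeSpace X :=
  Z - (3 : ℂ)⁻¹ • ∑ i : Fin 3, (Z - (Fintype.card V : ℂ)⁻¹ • ∑ a, Z * permOp (σ i a))

omit hG in
theorem rep_stepR_gen {X V : Type} [MetricSpace X] [Fintype V] (π : RoeRep X)
    (σ : Fin 3 → V → Equiv.Perm X) (hσ : ∀ i a, Bdd (σ i a))
    {Z : RoeSpace X →L[ℂ] RoeSpace X} (h : IsRoe Z) :
    IsRoe (stepR σ Z) ∧
      π.π (stepR σ Z) = π.π Z * step fun i => avg fun a => ext π (σ i a) := by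
  have h2 := fun i => rep_avgR π (σ i) (hσ i) h
  have h3 := isRoe_sum Finset.univ fun i _ => (h2 i).1
  refine ⟨by rw [stepR]; exact isRoe_sub h (isRoe_smul _ h3), ?_⟩
  rw [stepR, rep_sub π h (isRoe_smul _ h3), π.map_smul _ _ h3,
    rep_sum π _ (fun i _ => (h2 i).1)]
  simp only [(h2 _).2, step, lap, mul_sub, mul_one, mul_smul_comm, Finset.mul_sum]

omit hG in
/-- The letters, by group. -/
def gP3 (T : Tower) (i : Fin 3) (a : Coef) : Equiv.Perm (Vert T) := gP T (i, a)

theorem isRoe_stepR {Z : RoeSpace (Vert T) →L[ℂ] RoeSpace (Vert T)} (h : IsRoe Z)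
    (π : RoeRep (Vert T)) :
    IsRoe (stepR (gP3 T) Z) ∧ π.π (stepR (gP3 T) Z) = π.π Z * step (pr π) :=
  rep_stepR_gen π (gP3 T) (fun i a => bdd_gP hG (i, a)) h

omit hG in
/-- The trivial representation. -/
noncomputable def trivRep (X : Type) [MetricSpace X] : RoeRep X where
  carrier := RoeSpace X
  π S := S
  map_add _ _ _ _ := rfl
  map_smul _ _ _ := rfl
  map_mul _ _ _ _ := rfl
  map_star _ _ := rfl

theorem phi_image_mem (hN : MaxNormFinite (Vert T)) {S : RoeSpace Base →L[ℂ] RoeSpace Base}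
    (hS : IsRoe S) {A : UnivSpace Base →L[ℂ] UnivSpace Base} (hA : IsUnivImage S A) :
    phi hG A ∈ maxRoe (Vert T) := by
  set Z : ℕ → (RoeSpace (Vert T) →L[ℂ] RoeSpace (Vert T)) :=
    fun k => (stepR (gP3 T))^[k] (lift' hG S) with hZ
  have hR : ∀ k, IsRoe (Z k) := fun k => by
    induction k with
    | zero => exact isRoe_lift' hG hS
    | succ k ih => rw [hZ]; simp only [Function.iterate_succ_apply']; exact (isRoe_stepR hG ih (trivRep (Vert T))).1
  have hπ : ∀ k (π : RoeRep (Vert T)), π.π (Z k) = π.π (Z 0) * step (pr π) ^ k := fun k π => by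
    induction k with
    | zero => rw [pow_zero, mul_one]
    | succ k ih =>
      rw [show Z (k + 1) = stepR (gP3 T) (Z k) from Function.iterate_succ_apply' _ _ _,
        (isRoe_stepR hG (hR k) π).2, ih, pow_succ, mul_assoc]
  choose A' hA' using fun k => hN (Z k) (hR k)
  have hbound : ∀ k, ‖A' k - phi hG A‖ ≤ ‖A' 0‖ * (60 * (59 / 60) ^ k) := by
    intro k
    refine ContinuousLinearMap.opNorm_le_bound _ (by positivity) fun v => ?_
    refine norm_le_comp v (by positivity) fun π => ?_
    have e : (A' k - phi (T := T) hG A) v π =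
        π.π (Z 0) ((step (pr π) ^ k - proj hG π) (v π)) := by
      rw [sub_apply, lp.coeFn_sub, Pi.sub_apply, hA' k v π, phi_apply, comp_image _ hA, hπ,
        sub_apply, map_sub, mul_apply_eq_comp]
      rfl
    rw [e, mul_assoc]
    have hn : ‖π.π (Z 0)‖ ≤ ‖A' 0‖ := by
      rw [← comp_image π (hA' 0)]
      exact norm_comp_le π _
    refine (ContinuousLinearMap.le_opNorm _ _).trans
      (mul_le_mul hn ?_ (norm_nonneg _) (norm_nonneg _))
    exact (ContinuousLinearMap.le_opNorm _ _).trans
      (mul_le_mul_of_nonneg_right (proj_rate hG π k) (norm_nonneg _))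
  have hlim : Tendsto A' atTop (𝓝 (phi hG A)) := by
    rw [tendsto_iff_norm_sub_tendsto_zero]
    refine squeeze_zero (fun k => norm_nonneg _) hbound ?_
    simpa using ((tendsto_pow_atTop_nhds_zero_of_lt_one (r := (59 / 60 : ℝ))
      (by norm_num) (by norm_num)).const_mul 60).const_mul ‖A' 0‖
  exact mem_closure_of_tendsto hlim (Eventually.of_forall fun k => ⟨Z k, hR k, hA' k⟩)

theorem phi_mem (hN : MaxNormFinite (Vert T)) {a : UnivSpace Base →L[ℂ] UnivSpace Base}
    (ha : a ∈ maxRoeUnit Base) : phi hG a ∈ maxRoeUnit (Vert T) := by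
  obtain ⟨z, B, hB, rfl⟩ := ha
  refine ⟨z, phi hG B, ?_, by rw [phi_add, phi_smul, phi_one]⟩
  refine closure_minimal (t := {b | phi (T := T) hG b ∈ maxRoe (Vert T)})
    (fun A hA => ?_) (isClosed_closure.preimage (phi_continuous hG)) hB
  obtain ⟨S, hS, hA⟩ := hA
  exact phi_image_mem hG hN hS hA

/-! ### The roots -/

omit hG in
theorem root_of_level_zero (x : Vert T) (h : x.l = 0) :
    x = rootVert T ⟨x.n, x.z⟩ := by
  obtain ⟨n, z, l, w⟩ := x
  subst h
  have : w = Classical.arbitrary (T.Fib n 0) := (T.root n).elim _ _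
  rw [this]
  rfl

omit hG in
theorem off_root_vert {x : Vert T} (h : x.l ≠ 0) : x ∉ Set.range (rootVert T) := by
  rintro ⟨r, rfl⟩
  exact h rfl

omit hG in
theorem off_root_base {u : Base} (h : u.l ≠ 0) : u ∉ Set.range rootBase := by
  rintro ⟨r, rfl⟩
  exact h rfl

omit hG in
theorem scal_roots (a b : Σ n, Grid n) : scal T (rootBase a) (rootBase b) = 1 := by
  have h : ∀ n, Fintype.card (T.Fib n 0) = 1 := fun n => by
    have := T.root n
    exact Fintype.card_eq_one_iff.2 ⟨Classical.arbitrary _, fun y => Subsingleton.elim _ _⟩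
  show Real.sqrt (Fintype.card (T.Fib b.1 0) : ℕ) / Real.sqrt (Fintype.card (T.Fib a.1 0) : ℕ) = 1
  rw [h, h, Nat.cast_one, Real.sqrt_one, div_one]

variable {T0 : RoeSpace (Σ n, Grid n) →L[ℂ] RoeSpace (Σ n, Grid n)}
  {S : RoeSpace Base →L[ℂ] RoeSpace Base} {S' : RoeSpace (Vert T) →L[ℂ] RoeSpace (Vert T)}

omit hG in
theorem root_rows (hS : AtRoots rootBase S T0) (hS' : AtRoots (rootVert T) S' T0) :
    HasRows S' fun u v => ((scal T u v : ℝ) : ℂ) • blk S u v := by
  intro x v
  by_cases hx : x.l = 0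
  · by_cases hv : v.l = 0
    · obtain ⟨n, z, l⟩ := v
      subst hv
      have := T.root n
      rw [Fintype.sum_subsingleton _ (Classical.arbitrary _)]
      have hb : x.base = rootBase ⟨x.n, x.z⟩ := by
        obtain ⟨xn, xz, xl, xw⟩ := x
        subst hx
        rfl
      show blk S' x (mkV _ _) =
        ((scal T x.base (rootBase ⟨n, z⟩) : ℝ) : ℂ) • blk S x.base (rootBase ⟨n, z⟩)
      rw [hb, scal_roots, Complex.ofReal_one, one_smul, root_of_level_zero x hx]
      refine clm_ext_single fun l => lp.ext (funext fun k => ?_)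
      rw [← inner_delta, ← inner_delta]
      exact (hS'.1 ⟨x.n, x.z⟩ ⟨n, z⟩ k l).trans (hS.1 ⟨x.n, x.z⟩ ⟨n, z⟩ k l).symm
    · show _ = ((scal T x.base v : ℝ) : ℂ) • blk S x.base v
      rw [(blk_eq_zero_iff S x.base v).2 fun k l => hS.2 _ _ k l (Or.inr (off_root_base hv)),
        smul_zero]
      exact Finset.sum_eq_zero fun b _ => (blk_eq_zero_iff S' x _).2 fun k l =>
        hS'.2 _ _ k l (Or.inr (off_root_vert hv))
  · show _ = ((scal T x.base v : ℝ) : ℂ) • blk S x.base v
    rw [(blk_eq_zero_iff S x.base v).2 fun k l => hS.2 _ _ k l (Or.inl (off_root_base hx)),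
      smul_zero]
    exact Finset.sum_eq_zero fun b _ => (blk_eq_zero_iff S' x _).2 fun k l =>
      hS'.2 _ _ k l (Or.inl (off_root_vert hx))

omit hG in
theorem root_perm (hS' : AtRoots (rootVert T) S' T0) (g : Gen) :
    S' * permOp (gP T g) = S' := by
  refine blk_ext fun x y => ?_
  rw [blk_mul_permOp]
  by_cases hy : y.l = 0
  · have e : gP T g y = y := by
      rw [root_of_level_zero _ hy, root_of_level_zero (gP T g (rootVert T ⟨y.n, y.z⟩)) rfl]
      rfl
    rw [e]
  · rw [(blk_eq_zero_iff S' x (gP T g y)).2 fun k l =>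
        hS'.2 _ _ k l (Or.inr (off_root_vert (x := gP T g y) hy)),
      (blk_eq_zero_iff S' x y).2 fun k l => hS'.2 _ _ k l (Or.inr (off_root_vert hy))]

theorem phi_root {A : UnivSpace Base →L[ℂ] UnivSpace Base}
    {A' : UnivSpace (Vert T) →L[ℂ] UnivSpace (Vert T)} (hS : AtRoots rootBase S T0)
    (hS' : AtRoots (rootVert T) S' T0) (h : IsRoe S) (h' : IsRoe S') (hA : IsUnivImage S A)
    (hA' : IsUnivImage S' A') : phi hG A = A' := by
  refine ContinuousLinearMap.ext fun v => lp.ext (funext fun π => ?_)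
  rw [phi_apply, comp_image _ hA, hA' v π]
  have hfix : π.π S' * proj hG π = π.π S' := by
    have hst : ∀ g, ext π (gP T g) * star (π.π S') = star (π.π S') := by
      rintro ⟨i, a⟩
      have e := congrArg star (comp_ext π (bdd_gP hG (i, -a)) h')
      rw [root_perm hS', star_mul, (urep_act hG π i).adj (-a), neg_neg] at e
      exact e
    have e : proj hG π * star (π.π S') = star (π.π S') :=
      ContinuousLinearMap.ext fun ξ => proj_fix hG π fun g => DFunLike.congr_fun (hst g) ξ
    have e2 := congrArg star e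
    rwa [star_mul, star_star, star_proj hG π] at e2
  show (π.π (lift' hG S) * proj hG π) (v π) = π.π S' (v π)
  rw [rep_congr hG (isRoe_lift' hG h) h' (rows_lift hG _ h) (root_rows hS hS') π, hfix]

end Avg

/-- The averaging homomorphism. -/
theorem averaging (hG : GeometrySpec) (hN : NormFiniteSpec) : AveragingSpec := by
  intro T
  have hNV : MaxNormFinite (Vert T) := hN (Vert T) (hG T).1 (hG T).2.1
  exact ⟨Avg.phi hG, fun a ha => Avg.phi_mem hG hNV ha,
    fun a _ b hb => ⟨Avg.phi_add hG a b, Avg.phi_mul hG a (Avg.isDiag_unit hb)⟩,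
    by simpa using Avg.phi_smul (T := T) hG 0 0,
    Avg.phi_one hG,
    fun _ _ _ _ _ hS hS' h h' hA hA' => Avg.phi_root hG hS hS' h h' hA hA'⟩

end VP212
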