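import Vale.Agent.P212.Avg.Kernel

/-!
P212 averaging: an operator with vanishing fibre row sums kills the fixed vectors.
-/

open scoped InnerProductSpace

namespace VP212.Avg

variable {X : Type} [MetricSpace X] (π : RoeRep X)

theorem rep_zero : π.π 0 = 0 := by
  have h := π.map_smul 0 0 isRoe_zero
  rwa [zero_smul, zero_smul] at h

theorem rep_sub {S S' : RoeSpace X →L[ℂ] RoeSpace X} (h : IsRoe S) (h' : IsRoe S') :
    π.π (S - S') = π.π S - π.π S' := by
  have h2 := π.map_add (S - S') S' (isRoe_sub h h') h'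
  rw [sub_add_cancel] at h2
  rw [h2, add_sub_cancel_right]

theorem rep_sum {ι : Type*} (s : Finset ι) {f : ι → (RoeSpace X →L[ℂ] RoeSpace X)}
    (h : ∀ i ∈ s, IsRoe (f i)) : π.π (∑ i ∈ s, f i) = ∑ i ∈ s, π.π (f i) := by
  classical
  induction s using Finset.induction_on with
  | empty => simpa using rep_zero π
  | insert a s ha ih =>
    have hs : ∀ i ∈ s, IsRoe (f i) := fun i hi => h i (Finset.mem_insert_of_mem hi)
    rw [Finset.sum_insert ha, Finset.sum_insert ha,
      π.map_add _ _ (h a (Finset.mem_insert_self a s)) (isRoe_sum s hs), ih hs]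

variable {T : Tower}

/-- The words of length at most `K`. -/
def shortWords (K : ℕ) : Finset (List Gen) :=
  (Finset.range (K + 1)).biUnion fun m => (Finset.univ : Finset (Fin m → Gen)).image List.ofFn

theorem mem_shortWords {K : ℕ} {w : List Gen} (h : w.length ≤ K) : w ∈ shortWords K :=
  Finset.mem_biUnion.2 ⟨w.length, Finset.mem_range_succ_iff.2 h,
    Finset.mem_image.2 ⟨w.get, Finset.mem_univ _, List.ofFn_get w⟩⟩

variable (hG : GeometrySpec)
include hG

theorem word_exists (R : ℝ) :
    ∃ K : ℕ, ∀ x y : Vert T, x.base = y.base → dist x y ≤ R →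
      ∃ w : List Gen, w.length ≤ K ∧ wP T w x = y := by
  obtain ⟨K, hK⟩ := (hG T).2.2.2.2.2.1 R
  exact ⟨K, fun x y h1 h2 => by
    obtain ⟨w, hw, e⟩ := hK x y h1 h2
    exact ⟨w, hw, by rw [wP_foldr, e]⟩⟩

/-- Vanishing fibre row sums kill the fixed vectors. -/
theorem null {Z : RoeSpace (Vert T) →L[ℂ] RoeSpace (Vert T)} (hZ : IsRoe Z)
    (hrow : ∀ (x : Vert T) (v : Base), ∑ b, blk Z x (mkV v b) = 0) (π : RoeRep (Vert T)) :
    π.π Z * proj hG π = 0 := by
  classical
  have hb : BoundedGeometry (Vert T) := (hG T).2.1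
  obtain ⟨⟨R, hR⟩, hc⟩ := (isRoe_iff Z).1 hZ
  obtain ⟨K, hK⟩ := word_exists (T := T) hG (2 * R)
  -- the base point of the fibre over `v` seen from `x`
  let b0 : ∀ (x : Vert T) (v : Base), T.Fib v.n v.l := fun x v =>
    if h : ∃ b, dist x (mkV v b) ≤ R then h.choose else Classical.arbitrary _
  have hb0 : ∀ x y : Vert T, dist x y ≤ R →
      ∃ w : List Gen, w.length ≤ K ∧ wP T w (mkV y.base (b0 x y.base)) = y := by
    intro x y hxy
    have h : ∃ b, dist x (mkV y.base b) ≤ R := ⟨y.w, hxy⟩
    have e : b0 x y.base = h.choose := dif_pos h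
    refine hK _ y rfl ?_
    rw [e]
    linarith [dist_triangle (mkV y.base h.choose) x y,
      dist_comm x (mkV y.base h.choose), h.choose_spec]
  let wsel : Vert T → Vert T → List Gen := fun x y =>
    if h : dist x y ≤ R then (hb0 x y h).choose else []
  have hws : ∀ x y, dist x y ≤ R →
      wsel x y ∈ shortWords K ∧ wP T (wsel x y) (mkV y.base (b0 x y.base)) = y := by
    intro x y h
    have e : wsel x y = (hb0 x y h).choose := dif_pos h
    rw [e]
    exact ⟨mem_shortWords (hb0 x y h).choose_spec.1, (hb0 x y h).choose_spec.2⟩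
  let K' : List Gen → Vert T → Vert T → (L2N →L[ℂ] L2N) := fun w x y =>
    if dist x y ≤ R ∧ wsel x y = w then blk Z x y else 0
  have hKb : ∀ w, ∃ M, 0 ≤ M ∧ ∀ x y, ‖K' w x y‖ ≤ M := fun w =>
    ⟨‖Z‖, norm_nonneg Z, fun x y => by
      show ‖if _ then _ else (0 : L2N →L[ℂ] L2N)‖ ≤ _
      split_ifs
      · exact norm_blk_le Z x y
      · rw [norm_zero]; exact norm_nonneg Z⟩
  have hK0 : ∀ w x y, R < dist x y → K' w x y = 0 := fun w x y h =>
    if_neg fun h' => absurd h'.1 (not_le.2 h)
  set Zw : List Gen → (RoeSpace (Vert T) →L[ℂ] RoeSpace (Vert T)) := fun w =>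
    blockOp hb R (K' w) (hKb w) with hZw
  have hZwR : ∀ w, IsRoe (Zw w) := fun w =>
    isRoe_blockOp hb (hKb w) (hK0 w) fun x y => by
      show IsCompactOperator ((if _ then _ else 0 : L2N →L[ℂ] L2N))
      split_ifs
      · exact hc x y
      · exact compact_zero
  have hblk : ∀ w x y, blk (Zw w) x y = K' w x y := fun w =>
    blk_blockOp hb (hKb w) (hK0 w)
  have hdec : Z = ∑ w ∈ shortWords K, (Zw w - Zw w * permOp (wP T w)) := by
    refine blk_ext fun x t => ?_
    rw [blk_sum]
    simp only [blk_sub, blk_mul_permOp, hblk, Finset.sum_sub_distrib]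
    have h1 : ∑ w ∈ shortWords K, K' w x t = blk Z x t := by
      by_cases h : dist x t ≤ R
      · simp only [K', h, true_and]
        rw [Finset.sum_ite_eq, if_pos (hws x t h).1]
      · rw [hR x t (not_le.1 h)]
        exact Finset.sum_eq_zero fun w _ => hK0 w x t (not_le.1 h)
    have h2 : ∑ w ∈ shortWords K, K' w x (wP T w t) = 0 := by
      set v := t.base with hv
      have e : ∀ w, K' w x (wP T w t) =
          ∑ b, if wP T w t = mkV v b then K' w x (mkV v b) else 0 := by
        intro w
        obtain ⟨c, hc'⟩ := exists_mkV (v := v) (wP_base w t)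
        rw [Finset.sum_eq_single c (fun b _ hbc => if_neg fun h => hbc
          (mkV_inj v (h.symm.trans hc'.symm))) (fun h => absurd (Finset.mem_univ c) h),
          if_pos hc'.symm, hc']
      simp only [e]
      rw [Finset.sum_comm]
      have e2 : ∀ b, (∑ w ∈ shortWords K, if wP T w t = mkV v b then K' w x (mkV v b) else 0) =
          if t = mkV v (b0 x v) then blk Z x (mkV v b) else 0 := by
        intro b
        by_cases hd : dist x (mkV v b) ≤ R
        · obtain ⟨hm, hw⟩ := hws x (mkV v b) hd
          rw [Finset.sum_eq_single (wsel x (mkV v b)) (fun w _ hne => by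
            simp only [K', hd, true_and, if_neg (Ne.symm hne), ite_self])
            (fun h => absurd hm h)]
          simp only [K', hd, true_and, if_true]
          refine if_congr ⟨fun h => ?_, fun h => ?_⟩ rfl rfl
          · exact (wP T _).injective (h.trans hw.symm)
          · rw [h]; exact hw
        · have hz : blk Z x (mkV v b) = 0 := hR _ _ (not_le.1 hd)
          rw [Finset.sum_eq_zero fun w _ => by simp [K', hd], hz, ite_self]
      simp only [e2]
      split_ifs
      · exact hrow x v
      · exact Finset.sum_const_zero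
    rw [h1, h2, sub_zero]
  rw [hdec, rep_sum π _ (fun w _ => isRoe_sub (hZwR w) ((bdd_wP hG w).roe_right (hZwR w))),
    Finset.sum_mul]
  refine Finset.sum_eq_zero fun w _ => ?_
  rw [rep_sub π (hZwR w) ((bdd_wP hG w).roe_right (hZwR w)),
    ← comp_ext π (bdd_wP hG w) (hZwR w), sub_mul, mul_assoc, wP_mul_proj hG π w, sub_self]

end VP212.Avg
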