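import Vale.Agent.P212.Avg.Block
import Vale.Agent.P212.Spec.Space

/-!
P212 averaging: operators with given blocks, the operations preserving `C[X]`, and the unitaries
of permutations.
-/

open scoped InnerProductSpace

namespace VP212.Avg

variable {X : Type} [MetricSpace X]

/-- The closed ball as a finite set. -/
noncomputable def ballF (hb : BoundedGeometry X) (R : ℝ) (x : X) : Finset X :=
  ((hb R).choose_spec x).1.toFinset

theorem mem_ballF (hb : BoundedGeometry X) {R : ℝ} {x y : X} :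
    y ∈ ballF hb R x ↔ dist y x ≤ R := by
  simp [ballF]

theorem card_ballF (hb : BoundedGeometry X) (R : ℝ) (x : X) :
    (ballF hb R x).card ≤ (hb R).choose := by
  rw [ballF, ← Set.ncard_eq_toFinset_card _ ((hb R).choose_spec x).1]
  exact ((hb R).choose_spec x).2

/-- One row of the operator with blocks `K`. -/
noncomputable def rowVec (hb : BoundedGeometry X) (R : ℝ) (K : X → X → (L2N →L[ℂ] L2N))
    (f : RoeSpace X) (x : X) : L2N :=
  ∑ y ∈ ballF hb R x, K x y (res y f)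

theorem rowVec_bound (hb : BoundedGeometry X) (R : ℝ) (K : X → X → (L2N →L[ℂ] L2N)) {M : ℝ}
    (hK : ∀ x y, ‖K x y‖ ≤ M) (f : RoeSpace X) (U : Finset X) :
    ∑ x ∈ U, ‖rowVec hb R K f x‖ ^ 2 ≤ (((hb R).choose : ℝ) * M * ‖f‖) ^ 2 := by
  classical
  set N : ℝ := ((hb R).choose : ℝ) with hN
  have h1 : ∀ x, ‖rowVec hb R K f x‖ ^ 2 ≤ N * M ^ 2 * ∑ y ∈ ballF hb R x, ‖res y f‖ ^ 2 := by
    intro x
    have hn : ‖rowVec hb R K f x‖ ≤ ∑ y ∈ ballF hb R x, M * ‖res y f‖ :=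
      norm_sum_le_of_le _ fun y _ => ((K x y).le_opNorm _).trans
        (mul_le_mul_of_nonneg_right (hK x y) (norm_nonneg _))
    refine (pow_le_pow_left₀ (norm_nonneg _) hn 2).trans ?_
    refine (sq_sum_le_card_mul_sum_sq).trans ?_
    simp only [mul_pow, ← Finset.mul_sum]
    rw [mul_assoc]
    exact mul_le_mul_of_nonneg_right (by rw [hN]; exact_mod_cast card_ballF hb R x)
      (mul_nonneg (sq_nonneg _) (Finset.sum_nonneg fun y _ => sq_nonneg _))
  refine (Finset.sum_le_sum fun x _ => h1 x).trans ?_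
  rw [← Finset.mul_sum]
  set W := U.biUnion (ballF hb R) with hW
  have h2 : ∑ x ∈ U, ∑ y ∈ ballF hb R x, ‖res y f‖ ^ 2 ≤ N * ∑ y ∈ W, ‖res y f‖ ^ 2 := by
    rw [Finset.sum_comm' (t' := W) (s' := fun y => U.filter fun x => y ∈ ballF hb R x)
      (fun x y => by
        simp only [hW, Finset.mem_biUnion, Finset.mem_filter]
        exact ⟨fun h => ⟨⟨h.1, h.2⟩, x, h.1, h.2⟩, fun h => ⟨h.1.1, h.1.2⟩⟩)]
    rw [Finset.mul_sum]
    refine Finset.sum_le_sum fun y _ => ?_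
    rw [Finset.sum_const, nsmul_eq_mul]
    refine mul_le_mul_of_nonneg_right ?_ (sq_nonneg _)
    have hsub : (U.filter fun x => y ∈ ballF hb R x) ⊆ ballF hb R y := fun x hx => by
      rw [mem_ballF, dist_comm]
      exact mem_ballF hb |>.1 (Finset.mem_filter.1 hx).2
    rw [hN]
    exact_mod_cast (Finset.card_le_card hsub).trans (card_ballF hb R y)
  calc N * M ^ 2 * ∑ x ∈ U, ∑ y ∈ ballF hb R x, ‖res y f‖ ^ 2
      ≤ N * M ^ 2 * (N * ‖f‖ ^ 2) := mul_le_mul_of_nonneg_left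
        (h2.trans (mul_le_mul_of_nonneg_left (sum_res_le f W) (by rw [hN]; positivity)))
        (by rw [hN]; positivity)
    _ = (N * M * ‖f‖) ^ 2 := by ring

theorem rowVec_sums (hb : BoundedGeometry X) (R : ℝ) (K : X → X → (L2N →L[ℂ] L2N)) {M : ℝ}
    (hK : ∀ x y, ‖K x y‖ ≤ M) (f : RoeSpace X) (s : Finset (X × ℕ)) :
    ∑ i ∈ s, ‖rowVec hb R K f i.1 i.2‖ ^ 2 ≤ (((hb R).choose : ℝ) * M * ‖f‖) ^ 2 := by
  classical
  refine (Finset.sum_le_sum_of_subset_of_nonneg (t := s.image Prod.fst ×ˢ s.image Prod.snd)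
    (fun i hi => Finset.mem_product.2
      ⟨Finset.mem_image_of_mem _ hi, Finset.mem_image_of_mem _ hi⟩)
    (fun i _ _ => sq_nonneg _)).trans ?_
  rw [Finset.sum_product]
  exact (Finset.sum_le_sum fun x _ => sum_sq_le _ _).trans (rowVec_bound hb R K hK f _)

/-- The operator with blocks `K` inside propagation `R`. -/
noncomputable def blockOp (hb : BoundedGeometry X) (R : ℝ) (K : X → X → (L2N →L[ℂ] L2N))
    (hK : ∃ M, 0 ≤ M ∧ ∀ x y, ‖K x y‖ ≤ M) : RoeSpace X →L[ℂ] RoeSpace X :=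
  LinearMap.mkContinuous
    { toFun := fun f => ⟨fun i => rowVec hb R K f i.1 i.2,
        memℓp_gen' (C := (((hb R).choose : ℝ) * hK.choose * ‖f‖) ^ 2) fun s => by
          simpa using rowVec_sums hb R K hK.choose_spec.2 f s⟩
      map_add' := fun f g => lp.ext (funext fun i => by
        show rowVec hb R K (f + g) i.1 i.2 = rowVec hb R K f i.1 i.2 + rowVec hb R K g i.1 i.2
        simp [rowVec, Finset.sum_add_distrib])
      map_smul' := fun c f => lp.ext (funext fun i => by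
        show rowVec hb R K (c • f) i.1 i.2 = c * rowVec hb R K f i.1 i.2
        simp [rowVec, ← Finset.smul_sum]
        rfl) }
    (((hb R).choose : ℝ) * hK.choose) fun f =>
      norm_le_of_sums _ (mul_nonneg (mul_nonneg (Nat.cast_nonneg _) hK.choose_spec.1)
        (norm_nonneg _)) fun s => rowVec_sums hb R K hK.choose_spec.2 f s

theorem res_blockOp (hb : BoundedGeometry X) (R : ℝ) (K : X → X → (L2N →L[ℂ] L2N))
    (hK : ∃ M, 0 ≤ M ∧ ∀ x y, ‖K x y‖ ≤ M) (f : RoeSpace X) (x : X) :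
    res x (blockOp hb R K hK f) = rowVec hb R K f x :=
  lp.ext (funext fun _ => rfl)

theorem blk_blockOp (hb : BoundedGeometry X) {R : ℝ} {K : X → X → (L2N →L[ℂ] L2N)}
    (hK : ∃ M, 0 ≤ M ∧ ∀ x y, ‖K x y‖ ≤ M) (h0 : ∀ x y, R < dist x y → K x y = 0) (x y : X) :
    blk (blockOp hb R K hK) x y = K x y := by
  classical
  ext1 g
  rw [blk_apply, res_blockOp, rowVec]
  simp only [res_inj, apply_ite, map_zero, Finset.sum_ite_eq']
  split_ifs with h
  · rfl
  · rw [mem_ballF, not_le, dist_comm] at h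
    rw [h0 x y h]
    rfl

theorem isRoe_blockOp (hb : BoundedGeometry X) {R : ℝ} {K : X → X → (L2N →L[ℂ] L2N)}
    (hK : ∃ M, 0 ≤ M ∧ ∀ x y, ‖K x y‖ ≤ M) (h0 : ∀ x y, R < dist x y → K x y = 0)
    (hc : ∀ x y, IsCompactOperator (K x y)) : IsRoe (blockOp hb R K hK) :=
  (isRoe_iff _).2 ⟨⟨R, fun x y h => by rw [blk_blockOp hb hK h0]; exact h0 x y h⟩,
    fun x y => by rw [blk_blockOp hb hK h0]; exact hc x y⟩

omit [MetricSpace X] in
/-- The blocks are bounded by the norm of the operator. -/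
theorem norm_blk_le (S : RoeSpace X →L[ℂ] RoeSpace X) (x y : X) : ‖blk S x y‖ ≤ ‖S‖ := by
  classical
  refine ContinuousLinearMap.opNorm_le_bound _ (norm_nonneg S) fun g => ?_
  rw [blk_apply]
  refine (norm_res_le x _).trans ((S.le_opNorm _).trans (mul_le_mul_of_nonneg_left ?_
    (norm_nonneg _)))
  have h : ‖inj y g‖ ^ 2 = ‖g‖ ^ 2 := by
    rw [@norm_sq_eq_re_inner ℂ (RoeSpace X) _ _ _ (inj y g), inner_inj, res_inj, if_pos rfl]
    exact (@norm_sq_eq_re_inner ℂ L2N _ _ _ g).symm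
  exact (pow_left_inj₀ (norm_nonneg _) (norm_nonneg _) two_ne_zero).1 h |>.le

/-! ### Operations preserving `C[X]` -/

theorem compact_zero : IsCompactOperator (0 : L2N →L[ℂ] L2N) := isCompactOperator_zero

theorem compact_finset_sum {ι : Type*} (s : Finset ι) {f : ι → (L2N →L[ℂ] L2N)}
    (h : ∀ i ∈ s, IsCompactOperator (f i)) : IsCompactOperator (∑ i ∈ s, f i : L2N →L[ℂ] L2N) :=
  Finset.sum_induction f (fun T : L2N →L[ℂ] L2N => IsCompactOperator T)
    (fun _ _ ha hb => ha.add hb) compact_zero h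

theorem isRoe_zero : IsRoe (0 : RoeSpace X →L[ℂ] RoeSpace X) :=
  (isRoe_iff _).2 ⟨⟨0, fun x y _ => blk_zero x y⟩, fun x y => by
    rw [blk_zero]; exact compact_zero⟩

theorem isRoe_add {S T : RoeSpace X →L[ℂ] RoeSpace X} (hS : IsRoe S) (hT : IsRoe T) :
    IsRoe (S + T) := by
  obtain ⟨⟨R, hR⟩, hc⟩ := (isRoe_iff S).1 hS
  obtain ⟨⟨R', hR'⟩, hc'⟩ := (isRoe_iff T).1 hT
  refine (isRoe_iff _).2 ⟨⟨max R R', fun x y h => ?_⟩, fun x y => ?_⟩
  · rw [blk_add, hR x y (lt_of_le_of_lt (le_max_left _ _) h),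
      hR' x y (lt_of_le_of_lt (le_max_right _ _) h), add_zero]
  · rw [blk_add]; exact (hc x y).add (hc' x y)

theorem isRoe_smul (c : ℂ) {S : RoeSpace X →L[ℂ] RoeSpace X} (hS : IsRoe S) : IsRoe (c • S) := by
  obtain ⟨⟨R, hR⟩, hc⟩ := (isRoe_iff S).1 hS
  refine (isRoe_iff _).2 ⟨⟨R, fun x y h => ?_⟩, fun x y => ?_⟩
  · rw [blk_smul, hR x y h, smul_zero]
  · rw [blk_smul]; exact (hc x y).smul c

theorem isRoe_sub {S T : RoeSpace X →L[ℂ] RoeSpace X} (hS : IsRoe S) (hT : IsRoe T) :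
    IsRoe (S - T) := by
  rw [sub_eq_add_neg, ← neg_one_smul ℂ T]
  exact isRoe_add hS (isRoe_smul _ hT)

theorem isRoe_sum {ι : Type*} (s : Finset ι) {f : ι → (RoeSpace X →L[ℂ] RoeSpace X)}
    (h : ∀ i ∈ s, IsRoe (f i)) : IsRoe (∑ i ∈ s, f i) :=
  Finset.sum_induction f IsRoe (fun _ _ ha hb => isRoe_add ha hb) isRoe_zero h

theorem isRoe_star {S : RoeSpace X →L[ℂ] RoeSpace X} (hS : IsRoe S) : IsRoe (star S) := by
  obtain ⟨⟨R, hR⟩, hc⟩ := (isRoe_iff S).1 hS
  refine (isRoe_iff _).2 ⟨⟨R, fun x y h => ?_⟩, fun x y => ?_⟩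
  · rw [blk_star, hR y x (by rwa [dist_comm]), map_zero]
  · rw [blk_star]; exact compact_adjoint (hc y x)

theorem isRoe_mul (hb : BoundedGeometry X) {S T : RoeSpace X →L[ℂ] RoeSpace X} (hS : IsRoe S)
    (hT : IsRoe T) : IsRoe (S * T) := by
  obtain ⟨⟨R, hR⟩, hc⟩ := (isRoe_iff S).1 hS
  obtain ⟨⟨R', hR'⟩, hc'⟩ := (isRoe_iff T).1 hT
  have hF : ∀ y z, z ∉ ballF hb R' y → blk T z y = 0 := fun y z hz => by
    rw [mem_ballF, not_le] at hz
    exact hR' z y hz
  refine (isRoe_iff _).2 ⟨⟨R + R', fun x y h => ?_⟩, fun x y => ?_⟩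
  · rw [blk_mul x (hF y)]
    refine Finset.sum_eq_zero fun z hz => ?_
    rw [mem_ballF] at hz
    rw [hR x z (by linarith [dist_triangle x z y]), ContinuousLinearMap.zero_comp]
  · rw [blk_mul x (hF y)]
    exact compact_finset_sum _ fun z _ => (hc' z y).clm_comp (blk S x z)

/-! ### Permutations of bounded displacement -/

omit [MetricSpace X] in
theorem permVec_sums (σ : Equiv.Perm X) (f : RoeSpace X) (s : Finset (X × ℕ)) :
    ∑ i ∈ s, ‖f (σ⁻¹ i.1, i.2)‖ ^ 2 ≤ ‖f‖ ^ 2 := by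
  classical
  have h := sum_sq_le f (s.image fun i => (σ⁻¹ i.1, i.2))
  rwa [Finset.sum_image (fun a _ b _ hab => by
    simpa [Prod.ext_iff] using hab)] at h

omit [MetricSpace X] in
/-- The unitary of a permutation. -/
noncomputable def permOp (σ : Equiv.Perm X) : RoeSpace X →L[ℂ] RoeSpace X :=
  LinearMap.mkContinuous
    { toFun := fun f => ⟨fun i => f (σ⁻¹ i.1, i.2), memℓp_gen' (C := ‖f‖ ^ 2) fun s => by
        simpa using permVec_sums σ f s⟩
      map_add' := fun _ _ => rfl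
      map_smul' := fun _ _ => rfl } 1 fun f => by
    rw [one_mul]
    exact norm_le_of_sums _ (norm_nonneg f) fun s => permVec_sums σ f s

omit [MetricSpace X] in
theorem res_permOp (σ : Equiv.Perm X) (f : RoeSpace X) (x : X) :
    res x (permOp σ f) = res (σ⁻¹ x) f :=
  lp.ext (funext fun _ => rfl)

omit [MetricSpace X] in
theorem permOp_one : permOp (1 : Equiv.Perm X) = 1 :=
  ContinuousLinearMap.ext fun f => res_ext fun x => by rw [res_permOp]; rfl

omit [MetricSpace X] in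
theorem permOp_mul (σ τ : Equiv.Perm X) : permOp (σ * τ) = permOp σ * permOp τ :=
  ContinuousLinearMap.ext fun f => res_ext fun x => by
    rw [mul_apply_eq_comp, res_permOp, res_permOp, res_permOp, mul_inv_rev]
    rfl

omit [MetricSpace X] in
theorem blk_permOp_mul (σ : Equiv.Perm X) (S : RoeSpace X →L[ℂ] RoeSpace X) (x y : X) :
    blk (permOp σ * S) x y = blk S (σ⁻¹ x) y := by
  ext1 g
  rw [blk_apply, mul_apply_eq_comp, res_permOp]
  rfl

omit [MetricSpace X] in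
theorem permOp_inj (σ : Equiv.Perm X) (y : X) (g : L2N) :
    permOp σ (inj y g) = inj (σ y) g := by
  classical
  refine res_ext fun x => ?_
  rw [res_permOp, res_inj, res_inj]
  by_cases h : x = σ y
  · subst h
    simp
  · rw [if_neg h, if_neg]
    intro h'
    exact h (by rw [← h']; simp)

omit [MetricSpace X] in
theorem blk_mul_permOp (σ : Equiv.Perm X) (S : RoeSpace X →L[ℂ] RoeSpace X) (x y : X) :
    blk (S * permOp σ) x y = blk S x (σ y) := by
  ext1 g
  rw [blk_apply, mul_apply_eq_comp, permOp_inj]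
  rfl

omit [MetricSpace X] in
theorem star_permOp (σ : Equiv.Perm X) : star (permOp σ) = permOp σ⁻¹ := by
  classical
  refine blk_ext fun x y => ?_
  rw [blk_star]
  refine (ContinuousLinearMap.eq_adjoint_iff _ _).2 (fun u w => ?_) |>.symm
  rw [blk_apply, blk_apply, permOp_inj, permOp_inj, res_inj, res_inj]
  by_cases h : x = σ⁻¹ y
  · rw [if_pos h, if_pos (by rw [h]; simp)]
  · rw [if_neg h, if_neg (fun h' => h (by rw [h']; simp)), inner_zero_left, inner_zero_right]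

/-- Bounded displacement. -/
def Moves (D : ℝ) (σ : Equiv.Perm X) : Prop := ∀ x, dist x (σ x) ≤ D

theorem Moves.inv {D : ℝ} {σ : Equiv.Perm X} (h : Moves D σ) : Moves D σ⁻¹ := fun x => by
  have := h (σ⁻¹ x)
  rw [show σ (σ⁻¹ x) = x by simp, dist_comm] at this
  exact this

theorem isRoe_perm_mul {D : ℝ} {σ : Equiv.Perm X} (hσ : Moves D σ)
    {S : RoeSpace X →L[ℂ] RoeSpace X} (hS : IsRoe S) : IsRoe (permOp σ * S) := by
  obtain ⟨⟨R, hR⟩, hc⟩ := (isRoe_iff S).1 hS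
  refine (isRoe_iff _).2 ⟨⟨R + D, fun x y h => ?_⟩, fun x y => ?_⟩
  · rw [blk_permOp_mul]
    exact hR _ _ (by linarith [dist_triangle x (σ⁻¹ x) y, hσ.inv x])
  · rw [blk_permOp_mul]; exact hc _ _

theorem isRoe_mul_perm {D : ℝ} {σ : Equiv.Perm X} (hσ : Moves D σ)
    {S : RoeSpace X →L[ℂ] RoeSpace X} (hS : IsRoe S) : IsRoe (S * permOp σ) := by
  obtain ⟨⟨R, hR⟩, hc⟩ := (isRoe_iff S).1 hS
  refine (isRoe_iff _).2 ⟨⟨R + D, fun x y h => ?_⟩, fun x y => ?_⟩
  · rw [blk_mul_permOp]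
    exact hR _ _ (by linarith [dist_triangle x (σ y) y, hσ y, dist_comm y (σ y)])
  · rw [blk_mul_permOp]; exact hc _ _

end VP212.Avg
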